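import Mathlib.Analysis.Calculus.SmoothSeries
import Mathlib.Analysis.SpecialFunctions.Exponential
import Mathlib.Analysis.SpecialFunctions.Integrals.Basic
import Mathlib.MeasureTheory.Integral.DominatedConvergence
import Mathlib.Analysis.ODE.Gronwall

/-!
# Linear differential equations with parameters

For `A : Λ → ℝ → E →L[ℝ] E` jointly continuous and bounded, `x0 : Λ → E` continuous and bounded,
there is a (unique) solution `X l t` of `∂_t X = A l t X`, `X l 0 = x0 l`, jointly continuous in
`(l, t)`.
-/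

open Set Filter Topology MeasureTheory

namespace Vale.Agent.P139.H399

variable {Λ : Type*} [TopologicalSpace Λ] {E : Type*} [NormedAddCommGroup E] [NormedSpace ℝ E]

/-- Iterated integrals. -/
noncomputable def dys (A : Λ → ℝ → E →L[ℝ] E) (x0 : Λ → E) : ℕ → Λ → ℝ → E
  | 0 => fun l _ => x0 l
  | n + 1 => fun l t => ∫ s in (0 : ℝ)..t, A l s (dys A x0 n l s)

theorem dys_continuous [FirstCountableTopology Λ] [LocallyCompactSpace Λ]
    {A : Λ → ℝ → E →L[ℝ] E} {x0 : Λ → E}
    (hA : Continuous fun p : Λ × ℝ => A p.1 p.2) (hx : Continuous x0) (n : ℕ) :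
    Continuous fun p : Λ × ℝ => dys A x0 n p.1 p.2 := by
  induction n with
  | zero => exact hx.comp continuous_fst
  | succ n ih =>
    have h1 : Continuous (Function.uncurry fun (p : Λ × ℝ) (s : ℝ) =>
        A p.1 s (dys A x0 n p.1 s)) := by
      have h2 : Continuous fun q : (Λ × ℝ) × ℝ => A q.1.1 q.2 :=
        hA.comp ((continuous_fst.comp continuous_fst).prodMk continuous_snd)
      have h3 : Continuous fun q : (Λ × ℝ) × ℝ => dys A x0 n q.1.1 q.2 :=
        ih.comp ((continuous_fst.comp continuous_fst).prodMk continuous_snd)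
      exact h2.clm_apply h3
    exact intervalIntegral.continuous_parametric_intervalIntegral_of_continuous h1 continuous_snd

theorem dys_continuous_right [FirstCountableTopology Λ] [LocallyCompactSpace Λ]
    {A : Λ → ℝ → E →L[ℝ] E} {x0 : Λ → E}
    (hA : Continuous fun p : Λ × ℝ => A p.1 p.2) (hx : Continuous x0) (n : ℕ) (l : Λ) :
    Continuous fun t => dys A x0 n l t :=
  (dys_continuous hA hx n).comp (Continuous.prodMk_right l)

theorem integral_pow_abs (n : ℕ) (t : ℝ) :
    |∫ s in (0 : ℝ)..t, |s| ^ n| = |t| ^ (n + 1) / (n + 1) := by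
  rcases le_total 0 t with ht | ht
  · have h1 : ∫ s in (0 : ℝ)..t, |s| ^ n = ∫ s in (0 : ℝ)..t, s ^ n := by
      refine intervalIntegral.integral_congr fun s hs => ?_
      rw [uIcc_of_le ht] at hs
      simp only [abs_of_nonneg hs.1]
    rw [h1, integral_pow]
    simp only [ne_eq, Nat.succ_ne_zero, not_false_eq_true, zero_pow, sub_zero]
    rw [abs_div, abs_pow, abs_of_pos (by positivity : (0 : ℝ) < n + 1)]
  · have h1 : ∫ s in (0 : ℝ)..t, |s| ^ n = ∫ s in (0 : ℝ)..t, (-1) ^ n * s ^ n := by
      refine intervalIntegral.integral_congr fun s hs => ?_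
      rw [uIcc_of_ge ht] at hs
      simp only [abs_of_nonpos hs.2]
      rw [neg_pow]
    rw [h1, intervalIntegral.integral_const_mul, integral_pow]
    simp only [ne_eq, Nat.succ_ne_zero, not_false_eq_true, zero_pow, sub_zero]
    rw [abs_mul, abs_div, abs_pow, abs_pow, abs_neg, abs_one, one_pow, one_mul,
      abs_of_pos (by positivity : (0 : ℝ) < n + 1)]

theorem dys_norm_le [FirstCountableTopology Λ] [LocallyCompactSpace Λ]
    {A : Λ → ℝ → E →L[ℝ] E} {x0 : Λ → E}
    (hA : Continuous fun p : Λ × ℝ => A p.1 p.2) (hx : Continuous x0) {M C : ℝ} (hM : 0 ≤ M)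
    (hb : ∀ l t, ‖A l t‖ ≤ M) (hC : ∀ l, ‖x0 l‖ ≤ C) (n : ℕ) (l : Λ) (t : ℝ) :
    ‖dys A x0 n l t‖ ≤ C * ((M * |t|) ^ n / n.factorial) := by
  induction n generalizing t with
  | zero => simpa [dys] using hC l
  | succ n ih =>
    have hc : Continuous fun s => A l s (dys A x0 n l s) :=
      (hA.comp (Continuous.prodMk_right l)).clm_apply (dys_continuous_right hA hx n l)
    have hC0 : 0 ≤ C := (norm_nonneg _).trans (hC l)
    calc ‖dys A x0 (n + 1) l t‖ = ‖∫ s in (0 : ℝ)..t, A l s (dys A x0 n l s)‖ := rfl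
      _ ≤ |∫ s in (0 : ℝ)..t, (C * (M ^ (n + 1) / n.factorial)) * |s| ^ n| := by
          refine intervalIntegral.norm_integral_le_abs_of_norm_le (Eventually.of_forall ?_) ?_
          · intro s
            calc ‖A l s (dys A x0 n l s)‖ ≤ ‖A l s‖ * ‖dys A x0 n l s‖ := (A l s).le_opNorm _
              _ ≤ M * (C * ((M * |s|) ^ n / n.factorial)) := by
                  gcongr
                  · exact hb l s
                  · exact ih s
              _ = _ := by
                  rw [mul_pow, pow_succ]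
                  ring
          · have : Continuous fun s : ℝ => (C * (M ^ (n + 1) / n.factorial)) * |s| ^ n := by
              fun_prop
            exact this.intervalIntegrable 0 t
      _ = C * ((M * |t|) ^ (n + 1) / (n + 1).factorial) := by
          rw [intervalIntegral.integral_const_mul, abs_mul, integral_pow_abs,
            abs_of_nonneg (by positivity : 0 ≤ C * (M ^ (n + 1) / n.factorial)),
            Nat.factorial_succ, mul_pow]
          push_cast
          field_simp

/-- The solution, as a series. -/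
noncomputable def lsol (A : Λ → ℝ → E →L[ℝ] E) (x0 : Λ → E) (l : Λ) (t : ℝ) : E :=
  ∑' n, dys A x0 n l t

variable [CompleteSpace E] [FirstCountableTopology Λ] [LocallyCompactSpace Λ]
  {A : Λ → ℝ → E →L[ℝ] E} {x0 : Λ → E}

theorem dys_summable (hA : Continuous fun p : Λ × ℝ => A p.1 p.2) (hx : Continuous x0)
    {M C : ℝ} (hM : 0 ≤ M) (hb : ∀ l t, ‖A l t‖ ≤ M) (hC : ∀ l, ‖x0 l‖ ≤ C) (l : Λ) (t : ℝ) :
    Summable fun n => dys A x0 n l t :=
  Summable.of_norm_bounded (g := fun n => C * ((M * |t|) ^ n / n.factorial))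
    ((Real.summable_pow_div_factorial _).mul_left _) fun n => dys_norm_le hA hx hM hb hC n l t

omit [TopologicalSpace Λ] [CompleteSpace E] [FirstCountableTopology Λ]
  [LocallyCompactSpace Λ] in
theorem lsol_at_zero (l : Λ) : lsol A x0 l 0 = x0 l := by
  unfold lsol
  rw [tsum_eq_single 0]
  · rfl
  · intro n hn
    obtain ⟨m, rfl⟩ := Nat.exists_eq_succ_of_ne_zero hn
    simp [dys]

/-- Joint continuity. -/
theorem lsol_continuous (hA : Continuous fun p : Λ × ℝ => A p.1 p.2) (hx : Continuous x0)
    {M C : ℝ} (hM : 0 ≤ M) (hb : ∀ l t, ‖A l t‖ ≤ M) (hC : ∀ l, ‖x0 l‖ ≤ C) :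
    Continuous fun p : Λ × ℝ => lsol A x0 p.1 p.2 := by
  have hf : ∀ n, Continuous fun q : Λ × ℝ => dys A x0 n q.1 q.2 := fun n => dys_continuous hA hx n
  have key : ∀ ρ : ℝ, ContinuousOn (fun q : Λ × ℝ => lsol A x0 q.1 q.2)
      ((fun q : Λ × ℝ => |q.2|) ⁻¹' Iio ρ) := by
    intro ρ
    have hs : Summable fun n : ℕ => |C| * ((M * ρ) ^ n / n.factorial) :=
      (Real.summable_pow_div_factorial _).mul_left _
    have hb' : ∀ (n : ℕ) (q : Λ × ℝ), q ∈ ((fun q : Λ × ℝ => |q.2|) ⁻¹' Iio ρ) →
        ‖dys A x0 n q.1 q.2‖ ≤ |C| * ((M * ρ) ^ n / n.factorial) := by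
      intro n q hq
      have h1 := dys_norm_le (A := A) (x0 := x0) hA hx hM hb
        (fun l => (hC l).trans (le_abs_self C)) n q.1 q.2
      have hq' : |q.2| ≤ ρ := le_of_lt hq
      refine h1.trans ?_
      gcongr
    exact continuousOn_tsum (fun n => (hf n).continuousOn) hs hb'
  rw [continuous_iff_continuousAt]
  intro p
  have hopen : IsOpen ((fun q : Λ × ℝ => |q.2|) ⁻¹' Iio (|p.2| + 1)) :=
    isOpen_Iio.preimage (continuous_abs.comp continuous_snd)
  exact (key (|p.2| + 1)).continuousAt (hopen.mem_nhds (by simp))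

/-- The differential equation. -/
theorem lsol_hasDerivAt (hA : Continuous fun p : Λ × ℝ => A p.1 p.2) (hx : Continuous x0)
    {M C : ℝ} (hM : 0 ≤ M) (hb : ∀ l t, ‖A l t‖ ≤ M) (hC : ∀ l, ‖x0 l‖ ≤ C) (l : Λ) (t : ℝ) :
    HasDerivAt (lsol A x0 l) (A l t (lsol A x0 l t)) t := by
  set ρ := |t| + 1 with hρ
  have hρ0 : 0 < ρ := by positivity
  set g' : ℕ → ℝ → E := fun n y => match n with
    | 0 => 0
    | n + 1 => A l y (dys A x0 n l y) with hg'
  set u : ℕ → ℝ := fun n => match n with
    | 0 => 0
    | n + 1 => M * (|C| * ((M * ρ) ^ n / n.factorial)) with hu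
  have hus : Summable u := by
    rw [← summable_nat_add_iff 1]
    exact ((Real.summable_pow_div_factorial _).mul_left _).mul_left _
  have hsum := dys_summable hA hx hM hb hC l t
  have h := hasDerivAt_tsum_of_isPreconnected (g := fun n => dys A x0 n l) (g' := g') (u := u)
    (t := Metric.ball (0 : ℝ) ρ) (y₀ := t) (y := t) hus Metric.isOpen_ball
    (convex_ball (0 : ℝ) ρ).isPreconnected ?_ ?_ ?_ hsum ?_
  · have h2 : ∑' n, g' n t = A l t (∑' n, dys A x0 n l t) := by
      have hs : Summable (fun n => g' n t) := by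
        rw [← summable_nat_add_iff 1]
        exact (A l t).summable hsum
      rw [hs.tsum_eq_zero_add]
      simp only [hg', zero_add]
      exact ((A l t).map_tsum hsum).symm
    rw [h2] at h
    exact h
  · intro n y _
    cases n with
    | zero => exact hasDerivAt_const y (x0 l)
    | succ n =>
      have hc : Continuous fun s => A l s (dys A x0 n l s) :=
        (hA.comp (Continuous.prodMk_right l)).clm_apply (dys_continuous_right hA hx n l)
      exact intervalIntegral.integral_hasDerivAt_right (hc.intervalIntegrable _ _)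
        (hc.stronglyMeasurableAtFilter _ _) hc.continuousAt
  · intro n y hy
    rw [Metric.mem_ball, dist_zero_right, Real.norm_eq_abs] at hy
    cases n with
    | zero => simp [hg', hu]
    | succ n =>
      simp only [hg', hu]
      calc ‖A l y (dys A x0 n l y)‖ ≤ ‖A l y‖ * ‖dys A x0 n l y‖ := (A l y).le_opNorm _
        _ ≤ M * (|C| * ((M * |y|) ^ n / n.factorial)) := by
            gcongr
            · exact hb l y
            · exact dys_norm_le hA hx hM hb (fun l => (hC l).trans (le_abs_self C)) n l y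
        _ ≤ M * (|C| * ((M * ρ) ^ n / n.factorial)) := by
            have := hy.le
            gcongr
  · rw [Metric.mem_ball, dist_zero_right, Real.norm_eq_abs]
    linarith only
  · rw [Metric.mem_ball, dist_zero_right, Real.norm_eq_abs]
    linarith only

end Vale.Agent.P139.H399
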