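import Vale.Agent.P139.H460.PSpec
import Vale.Agent.P139.H399.LinPar

/-!
# Block [P], P.abel: the Abel (Wronskian) identity and the linear solution `Z(r; R, w)`
-/

open Set Filter Topology MeasureTheory Complex

namespace Vale.Agent.P139.H399

open Vale.Agent.P139.H460

/-- Abel weight `r^{d-1} e^{i r^2/4}`. -/
noncomputable def abelW (d : ℕ) (r : ℝ) : ℂ := (r : ℂ) ^ (d - 1) * cexp (I * ((r ^ 2 / 4 : ℝ) : ℂ))

lemma abelW_ne {d : ℕ} {r : ℝ} (hr : r ≠ 0) : abelW d r ≠ 0 :=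
  mul_ne_zero (pow_ne_zero _ (by exact_mod_cast hr)) (Complex.exp_ne_zero _)

lemma continuous_abelW (d : ℕ) : Continuous (abelW d) := by
  unfold abelW
  fun_prop

lemma hasDerivAt_abelW {d : ℕ} (hd : 1 ≤ d) {r : ℝ} (hr : r ≠ 0) :
    HasDerivAt (abelW d)
      (((((d : ℝ) - 1) / r : ℝ) + I * (r / 2 : ℝ)) * abelW d r) r := by
  obtain ⟨k, rfl⟩ : ∃ k, d = k + 1 := ⟨d - 1, by omega⟩
  have hr' : (r : ℂ) ≠ 0 := by exact_mod_cast hr
  have h1 : HasDerivAt (fun s : ℝ => (s : ℂ) ^ k) ((k : ℂ) * (r : ℂ) ^ (k - 1)) r := by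
    have := (hasDerivAt_pow k (r : ℂ)).comp_ofReal
    simpa using this
  have h2 : HasDerivAt (fun s : ℝ => I * ((s ^ 2 / 4 : ℝ) : ℂ)) (I * (r / 2 : ℝ)) r := by
    have h3 : HasDerivAt (fun s : ℝ => s ^ 2 / 4) (r / 2) r := by
      have := (hasDerivAt_pow 2 r).div_const 4
      refine this.congr_deriv ?_
      simp only [Nat.add_one_sub_one, pow_one, Nat.cast_ofNat]
      ring
    exact h3.ofReal_comp.const_mul I
  have h4 := h1.mul h2.cexp
  have h5 : (fun s : ℝ => (s : ℂ) ^ k) * (fun s : ℝ => cexp (I * ((s ^ 2 / 4 : ℝ) : ℂ))) =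
      abelW (k + 1) := by
    funext s
    simp [abelW]
  rw [h5] at h4
  refine h4.congr_deriv ?_
  unfold abelW
  simp only [Nat.add_sub_cancel]
  have h6 : ((((k + 1 : ℕ) : ℝ) - 1) / r : ℝ) * (r : ℂ) ^ k = (k : ℂ) * (r : ℂ) ^ (k - 1) := by
    rcases Nat.eq_zero_or_pos k with rfl | hk
    · simp
    · obtain ⟨j, rfl⟩ : ∃ j, k = j + 1 := ⟨k - 1, by omega⟩
      push_cast
      simp only [pow_succ]
      field_simp
      ring
  linear_combination (-cexp (I * ((r ^ 2 / 4 : ℝ) : ℂ))) * h6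

/-- If a continuous function on `[R, r1]` has derivative zero inside, it is constant. -/
lemma const_of_deriv_zero {E : Type*} [NormedAddCommGroup E] [NormedSpace ℝ E] [CompleteSpace E]
    {f : ℝ → E} {R r1 : ℝ} (hc : ContinuousOn f (Icc R r1))
    (hd : ∀ r ∈ Ioo R r1, HasDerivAt f 0 r) : ∀ r ∈ Icc R r1, f r = f R := by
  intro r hr
  have h := intervalIntegral.integral_eq_sub_of_hasDerivAt_of_le (f' := fun _ => (0 : E)) hr.1
    (hc.mono (Icc_subset_Icc_right hr.2))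
    (fun x hx => hd x ⟨hx.1, hx.2.trans_le hr.2⟩) intervalIntegrable_const
  rw [intervalIntegral.integral_zero] at h
  exact (sub_eq_zero.1 h.symm)

/-- **Abel's identity** for two solutions of the same linear radial equation. -/
theorem abel_identity {d : ℕ} (hd : 1 ≤ d) {a w : ℝ} {P : ℝ → ℝ} {Z Z1 U U1 : ℝ → ℂ} {R r1 : ℝ}
    (hR : 0 < R) (hZc : ContinuousOn Z (Icc R r1)) (hZ1c : ContinuousOn Z1 (Icc R r1))
    (hUc : ContinuousOn U (Icc R r1)) (hU1c : ContinuousOn U1 (Icc R r1))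
    (hZ : RadODE d a w P Z Z1 (Ioo R r1)) (hU : RadODE d a w P U U1 (Ioo R r1)) :
    ∀ r ∈ Icc R r1, (Z1 r * U r - Z r * U1 r) * abelW d r =
      (Z1 R * U R - Z R * U1 R) * abelW d R := by
  refine const_of_deriv_zero (f := fun r => (Z1 r * U r - Z r * U1 r) * abelW d r)
    (((hZ1c.mul hUc).sub (hZc.mul hU1c)).mul (continuous_abelW d).continuousOn) ?_
  intro r hr
  have hr0 : r ≠ 0 := (hR.trans hr.1).ne'
  have h1 := ((hZ.h2 r hr).mul (hU.h1 r hr)).sub ((hZ.h1 r hr).mul (hU.h2 r hr))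
  have h2 := h1.mul (hasDerivAt_abelW hd hr0)
  refine h2.congr_deriv ?_
  simp only [Pi.mul_apply, Pi.sub_apply]
  ring

/-- Abel's identity with the data `(1,0)` at `R`. -/
theorem abel_data {d : ℕ} (hd : 1 ≤ d) {a w : ℝ} {P : ℝ → ℝ} {Z Z1 U U1 : ℝ → ℂ} {R r1 : ℝ}
    (hR : 0 < R) (hZc : ContinuousOn Z (Icc R r1)) (hZ1c : ContinuousOn Z1 (Icc R r1))
    (hUc : ContinuousOn U (Icc R r1)) (hU1c : ContinuousOn U1 (Icc R r1))
    (hZ : RadODE d a w P Z Z1 (Ioo R r1)) (hU : RadODE d a w P U U1 (Ioo R r1))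
    (h0 : Z R = 1) (h1 : Z1 R = 0) :
    ∀ r ∈ Icc R r1, (Z1 r * U r - Z r * U1 r) * abelW d r = -(U1 R * abelW d R) := by
  intro r hr
  rw [abel_identity hd hR hZc hZ1c hUc hU1c hZ hU r hr, h0, h1]
  ring

/-! ### The linear system -/

/-- Constant operators. -/
noncomputable def T0 : ℂ × ℂ →L[ℝ] ℂ × ℂ :=
  (ContinuousLinearMap.snd ℝ ℂ ℂ).prod (0 : ℂ × ℂ →L[ℝ] ℂ)

noncomputable def T1 : ℂ × ℂ →L[ℝ] ℂ × ℂ :=
  (0 : ℂ × ℂ →L[ℝ] ℂ).prod (-(ContinuousLinearMap.snd ℝ ℂ ℂ))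

noncomputable def T2 : ℂ × ℂ →L[ℝ] ℂ × ℂ :=
  (0 : ℂ × ℂ →L[ℝ] ℂ).prod (-(I • (ContinuousLinearMap.snd ℝ ℂ ℂ)))

noncomputable def T3 : ℂ × ℂ →L[ℝ] ℂ × ℂ :=
  (0 : ℂ × ℂ →L[ℝ] ℂ).prod (-(ContinuousLinearMap.fst ℝ ℂ ℂ))

/-- Clamp to `[lo, hi]`. -/
noncomputable def clamp (lo hi r : ℝ) : ℝ := max lo (min r hi)

lemma clamp_mem {lo hi : ℝ} (h : lo ≤ hi) (r : ℝ) : clamp lo hi r ∈ Icc lo hi :=
  ⟨le_max_left _ _, max_le h (min_le_right _ _)⟩

lemma clamp_eq {lo hi r : ℝ} (h : r ∈ Icc lo hi) : clamp lo hi r = r := by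
  unfold clamp
  rw [min_eq_left h.2, max_eq_right h.1]

lemma continuous_clamp (lo hi : ℝ) : Continuous (clamp lo hi) := by
  unfold clamp
  fun_prop

/-- The coefficient operator of the first order system, with clamped radius and parameter. -/
noncomputable def Aop (d : ℕ) (lo hi wM : ℝ) (w r : ℝ) : ℂ × ℂ →L[ℝ] ℂ × ℂ :=
  T0 + (((d : ℝ) - 1) / clamp lo hi r) • T1 + (clamp lo hi r / 2) • T2 + (clamp (-wM) wM w) • T3

lemma Aop_apply {d : ℕ} {lo hi wM w r : ℝ} (hr : r ∈ Icc lo hi) (hw : |w| ≤ wM) (x : ℂ × ℂ) :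
    Aop d lo hi wM w r x =
      (x.2, -((((d : ℝ) - 1) / r : ℝ) + I * (r / 2 : ℝ)) * x.2 - (w : ℂ) * x.1) := by
  unfold Aop
  rw [clamp_eq hr, clamp_eq (abs_le.1 hw)]
  simp only [T0, T1, T2, T3, _root_.add_apply, _root_.smul_apply,
    ContinuousLinearMap.prod_apply, ContinuousLinearMap.coe_snd', ContinuousLinearMap.coe_fst',
    _root_.zero_apply, _root_.neg_apply]
  ext
  · simp
  · simp
    ring

lemma continuous_Aop (d : ℕ) {lo hi wM : ℝ} (h0 : 0 < lo) :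
    Continuous fun p : ℝ × ℝ => Aop d lo hi wM p.1 p.2 := by
  unfold Aop
  have h1 : Continuous fun p : ℝ × ℝ => clamp lo hi p.2 := (continuous_clamp lo hi).comp continuous_snd
  have h2 : ∀ p : ℝ × ℝ, clamp lo hi p.2 ≠ 0 := fun p =>
    (h0.trans_le (le_max_left _ _)).ne'
  have h3 : Continuous fun p : ℝ × ℝ => clamp (-wM) wM p.1 :=
    (continuous_clamp _ _).comp continuous_fst
  have h4 : Continuous fun p : ℝ × ℝ => ((d : ℝ) - 1) / clamp lo hi p.2 :=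
    continuous_const.div h1 h2
  exact ((continuous_const.add (h4.smul continuous_const)).add
    ((h1.div_const 2).smul continuous_const)).add (h3.smul continuous_const)

lemma norm_Aop_le (d : ℕ) {lo hi wM : ℝ} (h0 : 0 < lo) (h : lo ≤ hi) (hw : 0 ≤ wM) :
    ∃ M, 0 ≤ M ∧ ∀ w r, ‖Aop d lo hi wM w r‖ ≤ M := by
  refine ⟨‖T0‖ + |(d : ℝ) - 1| / lo * ‖T1‖ + hi / 2 * ‖T2‖ + wM * ‖T3‖, ?_, fun w r => ?_⟩
  · have : 0 ≤ hi := h0.le.trans h
    positivity
  · have h1 := clamp_mem h r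
    have h2 := clamp_mem (by linarith : -wM ≤ wM) w
    have h3 : 0 < clamp lo hi r := h0.trans_le h1.1
    unfold Aop
    refine (norm_add_le _ _).trans (add_le_add ((norm_add_le _ _).trans (add_le_add
      ((norm_add_le _ _).trans (add_le_add le_rfl ?_)) ?_)) ?_)
    · rw [norm_smul, Real.norm_eq_abs, abs_div, abs_of_pos h3]
      have := h1.1
      gcongr
    · rw [norm_smul, Real.norm_eq_abs, abs_of_nonneg (by positivity)]
      have := h1.2
      gcongr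
    · rw [norm_smul, Real.norm_eq_abs]
      have := abs_le.2 h2
      gcongr

/-- The parametric solution with data `x` at the radius `R`: parameters `(R, w)`, time `r - R`. -/
noncomputable def rsol (d : ℕ) (lo hi wM : ℝ) (x : ℂ × ℂ) (R w r : ℝ) : ℂ × ℂ :=
  lsol (Λ := ℝ × ℝ) (fun l t => Aop d lo hi wM l.2 (l.1 + t)) (fun _ => x) (R, w) (r - R)

theorem rsol_self (d : ℕ) (lo hi wM : ℝ) (x : ℂ × ℂ) (R w : ℝ) :
    rsol d lo hi wM x R w R = x := by
  unfold rsol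
  rw [sub_self]
  exact lsol_at_zero (A := fun (l : ℝ × ℝ) t => Aop d lo hi wM l.2 (l.1 + t)) (x0 := fun _ => x)
    (R, w)

theorem continuous_shiftA (d : ℕ) {lo hi wM : ℝ} (h0 : 0 < lo) :
    Continuous fun p : (ℝ × ℝ) × ℝ => Aop d lo hi wM p.1.2 (p.1.1 + p.2) := by
  have h1 : Continuous fun p : (ℝ × ℝ) × ℝ => ((p.1.2, p.1.1 + p.2) : ℝ × ℝ) := by fun_prop
  have h2 := continuous_Aop d (lo := lo) (hi := hi) (wM := wM) h0
  exact Continuous.comp (g := fun q : ℝ × ℝ => Aop d lo hi wM q.1 q.2)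
    (f := fun p : (ℝ × ℝ) × ℝ => ((p.1.2, p.1.1 + p.2) : ℝ × ℝ)) h2 h1

theorem rsol_continuous (d : ℕ) {lo hi wM : ℝ} (h0 : 0 < lo) (h : lo ≤ hi) (hw : 0 ≤ wM)
    (x : ℂ × ℂ) : Continuous fun p : ℝ × ℝ × ℝ => rsol d lo hi wM x p.1 p.2.1 p.2.2 := by
  obtain ⟨M, hM, hb⟩ := norm_Aop_le d h0 h hw
  have h1 := lsol_continuous (Λ := ℝ × ℝ) (A := fun l t => Aop d lo hi wM l.2 (l.1 + t))
    (x0 := fun _ => x) (continuous_shiftA d h0) continuous_const hM (fun l t => hb _ _)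
    (fun _ => le_rfl)
  have h2 : Continuous fun p : ℝ × ℝ × ℝ => (((p.1, p.2.1), p.2.2 - p.1) : (ℝ × ℝ) × ℝ) := by
    fun_prop
  exact h1.comp h2

theorem rsol_hasDerivAt (d : ℕ) {lo hi wM : ℝ} (h0 : 0 < lo) (h : lo ≤ hi) (hw : 0 ≤ wM)
    (x : ℂ × ℂ) (R w r : ℝ) : HasDerivAt (rsol d lo hi wM x R w)
      (Aop d lo hi wM w r (rsol d lo hi wM x R w r)) r := by
  obtain ⟨M, hM, hb⟩ := norm_Aop_le d h0 h hw
  have h1 := lsol_hasDerivAt (Λ := ℝ × ℝ) (A := fun l t => Aop d lo hi wM l.2 (l.1 + t))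
    (x0 := fun _ => x) (continuous_shiftA d h0) continuous_const hM (fun l t => hb _ _)
    (fun _ => le_rfl) (R, w) (r - R)
  have h2 : HasDerivAt (fun s : ℝ => s - R) 1 r := (hasDerivAt_id r).sub_const R
  have h3 := h1.scomp r h2
  rw [one_smul] at h3
  simp only [add_sub_cancel] at h3
  exact h3

/-- **The linear solution** `Z(r; R, w)` with data `(1,0)` at `R`, jointly continuous in all
variables; it solves the true equation for `r ∈ [lo, hi]`, `|w| ≤ wM`. -/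
theorem exists_Z (d : ℕ) {lo hi wM : ℝ} (h0 : 0 < lo) (h : lo ≤ hi) (hw : 0 ≤ wM) :
    ∃ Z Z1 : ℝ → ℝ → ℝ → ℂ, Continuous (fun p : ℝ × ℝ × ℝ => Z p.1 p.2.1 p.2.2) ∧
      Continuous (fun p : ℝ × ℝ × ℝ => Z1 p.1 p.2.1 p.2.2) ∧
      (∀ R w, Z R w R = 1 ∧ Z1 R w R = 0) ∧
      ∀ R w, |w| ≤ wM → RadODE d 0 w (fun _ => 0) (Z R w) (Z1 R w) (Icc lo hi) := by
  have hc := rsol_continuous d h0 h hw ((1 : ℂ), (0 : ℂ))
  refine ⟨fun R w r => (rsol d lo hi wM (1, 0) R w r).1,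
    fun R w r => (rsol d lo hi wM (1, 0) R w r).2, continuous_fst.comp hc,
    continuous_snd.comp hc, fun R w => ?_, fun R w hw' => ⟨fun r hr => ?_, fun r hr => ?_⟩⟩
  · simp only [rsol_self]
    exact ⟨trivial, trivial⟩
  · have h1 := rsol_hasDerivAt d h0 h hw ((1 : ℂ), (0 : ℂ)) R w r
    rw [Aop_apply hr hw'] at h1
    exact h1.fst
  · have h1 := rsol_hasDerivAt d h0 h hw ((1 : ℂ), (0 : ℂ)) R w r
    rw [Aop_apply hr hw'] at h1
    have h2 : HasDerivAt (fun r => (rsol d lo hi wM (1, 0) R w r).2)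
      (-((((d : ℝ) - 1) / r : ℝ) + I * (r / 2 : ℝ)) * (rsol d lo hi wM (1, 0) R w r).2 -
        (w : ℂ) * (rsol d lo hi wM (1, 0) R w r).1) r := h1.snd
    refine h2.congr_deriv ?_
    simp

/-- Uniqueness for the linear radial equation (any `a`, `w`, potential bounded on `[R, r1]`). -/
theorem rad_unique {d : ℕ} {a w B : ℝ} {P : ℝ → ℝ} {Y Y1 Z Z1 : ℝ → ℂ} {R r1 : ℝ}
    (hR : 0 < R) (hP : ∀ r ∈ Ioo R r1, |P r| ≤ B)
    (hYc : ContinuousOn Y (Icc R r1)) (hY1c : ContinuousOn Y1 (Icc R r1))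
    (hZc : ContinuousOn Z (Icc R r1)) (hZ1c : ContinuousOn Z1 (Icc R r1))
    (hY : RadODE d a w P Y Y1 (Ioo R r1)) (hZ : RadODE d a w P Z Z1 (Ioo R r1))
    (h0 : Y R = Z R) (h1 : Y1 R = Z1 R) : ∀ r ∈ Icc R r1, Y r = Z r ∧ Y1 r = Z1 r := by
  intro r hr
  set K : ℝ := 1 + (|(d : ℝ) - 1| / R + r1 / 2) + (|w| + |a|) + |B| with hK
  have hr1 : 0 < r1 := hR.trans_le (hr.1.trans hr.2)
  set f : ℝ → ℂ × ℂ := fun s => (Y s - Z s, Y1 s - Z1 s) with hf
  have hfc : ContinuousOn f (Icc R r1) := (hYc.sub hZc).prodMk (hY1c.sub hZ1c)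
  set f' : ℝ → ℂ × ℂ := fun s => (Y1 s - Z1 s,
    -((((d : ℝ) - 1) / s : ℝ) + I * (s / 2 : ℝ)) * (Y1 s - Z1 s) -
      ((w : ℂ) + I * a) * (Y s - Z s) + P s * (Y s - Z s)) with hf'
  have hd : ∀ s ∈ Ioo R r1, HasDerivAt f (f' s) s := by
    intro s hs
    have h2 := ((hY.h1 s hs).sub (hZ.h1 s hs)).prodMk ((hY.h2 s hs).sub (hZ.h2 s hs))
    refine h2.congr_deriv ?_
    rw [hf']
    ext
    · rfl
    · simp only
      ring
  have hbd : ∀ s ∈ Ioo R r1, ‖f' s‖ ≤ K * ‖f s‖ := by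
    intro s hs
    have hs0 : 0 < s := hR.trans hs.1
    have e1 : ‖Y s - Z s‖ ≤ ‖f s‖ := norm_fst_le (f s)
    have e2 : ‖Y1 s - Z1 s‖ ≤ ‖f s‖ := norm_snd_le (f s)
    have hn := norm_nonneg (f s)
    have hK1 : 1 ≤ K := by
      rw [hK]
      have : 0 ≤ |(d : ℝ) - 1| / R := by positivity
      have := abs_nonneg w
      have := abs_nonneg a
      have := abs_nonneg B
      linarith
    rw [Prod.norm_def]
    refine max_le (e2.trans (by nlinarith)) ?_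
    have n1 : ‖(-((((d : ℝ) - 1) / s : ℝ) + I * (s / 2 : ℝ)) : ℂ)‖ ≤ |(d : ℝ) - 1| / R + r1 / 2 := by
      rw [norm_neg]
      refine (norm_add_le _ _).trans (add_le_add ?_ ?_)
      · rw [Complex.norm_real, Real.norm_eq_abs, abs_div, abs_of_pos hs0]
        have := hs.1.le
        gcongr
      · rw [norm_mul, Complex.norm_I, one_mul, Complex.norm_real, Real.norm_eq_abs,
          abs_of_pos (by positivity)]
        have := hs.2.le
        gcongr
    have n2 : ‖((w : ℂ) + I * a)‖ ≤ |w| + |a| := by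
      refine (norm_add_le _ _).trans (le_of_eq ?_)
      rw [norm_mul, Complex.norm_I, one_mul, Complex.norm_real, Complex.norm_real,
        Real.norm_eq_abs, Real.norm_eq_abs]
    have n3 : ‖(P s : ℂ)‖ ≤ |B| := by
      rw [Complex.norm_real, Real.norm_eq_abs]
      exact (hP s hs).trans (le_abs_self B)
    calc ‖-((((d : ℝ) - 1) / s : ℝ) + I * (s / 2 : ℝ)) * (Y1 s - Z1 s) -
          ((w : ℂ) + I * a) * (Y s - Z s) + P s * (Y s - Z s)‖
        ≤ ‖(-((((d : ℝ) - 1) / s : ℝ) + I * (s / 2 : ℝ)) : ℂ)‖ * ‖Y1 s - Z1 s‖ +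
          ‖((w : ℂ) + I * a)‖ * ‖Y s - Z s‖ + ‖(P s : ℂ)‖ * ‖Y s - Z s‖ := by
          refine (norm_add_le _ _).trans (add_le_add ((norm_sub_le _ _).trans
            (add_le_add ?_ ?_)) ?_) <;> rw [norm_mul]
      _ ≤ (|(d : ℝ) - 1| / R + r1 / 2) * ‖f s‖ + (|w| + |a|) * ‖f s‖ + |B| * ‖f s‖ := by
          gcongr
      _ ≤ K * ‖f s‖ := by
          rw [hK]
          nlinarith
  have hz : ∀ s ∈ Icc R r1, f s = 0 := by
    have hKn : 0 ≤ K := by
      rw [hK]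
      positivity
    -- Gronwall from interior points, then let the initial point tend to `R`
    have hstep : ∀ x ∈ Ioo R r1, ∀ s ∈ Ico x r1, ‖f s‖ ≤ ‖f x‖ * Real.exp (K * (s - x)) := by
      intro x hx s hs
      have := norm_le_gronwallBound_of_norm_deriv_right_le (f := f) (f' := f') (δ := ‖f x‖)
        (K := K) (ε := 0) (a := x) (b := s)
        (hfc.mono (Icc_subset_Icc hx.1.le hs.2.le))
        (fun y hy => (hd y ⟨hx.1.trans_le hy.1, hy.2.trans hs.2⟩).hasDerivWithinAt) le_rfl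
        (fun y hy => by
          rw [add_zero]
          exact hbd y ⟨hx.1.trans_le hy.1, hy.2.trans hs.2⟩) s ⟨hs.1, le_rfl⟩
      rwa [gronwallBound_ε0] at this
    have hfR : f R = 0 := by
      rw [hf]
      simp only [h0, h1, sub_self]
      rfl
    have hin : ∀ s ∈ Ioo R r1, f s = 0 := by
      intro s hs
      have hlim : Tendsto (fun x => ‖f x‖ * Real.exp (K * (s - x))) (𝓝[Ioo R s] R)
          (𝓝 (‖f R‖ * Real.exp (K * (s - R)))) := by
        have c1 : ContinuousWithinAt f (Ioo R s) R :=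
          (hfc R ⟨le_rfl, hs.1.le.trans hs.2.le⟩).mono
            (fun y hy => ⟨hy.1.le, hy.2.le.trans hs.2.le⟩)
        have c2 : Continuous fun x => Real.exp (K * (s - x)) := by fun_prop
        exact (c1.norm).mul (c2.continuousWithinAt)
      rw [hfR, norm_zero, zero_mul] at hlim
      have : (𝓝[Ioo R s] R).NeBot := left_nhdsWithin_Ioo_neBot hs.1
      have h3 : ‖f s‖ ≤ 0 := by
        refine ge_of_tendsto hlim ?_
        filter_upwards [self_mem_nhdsWithin] with x hx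
        exact hstep x ⟨hx.1, hx.2.trans hs.2⟩ s ⟨hx.2.le, hs.2⟩
      exact norm_le_zero_iff.1 h3
    intro s hs
    rcases eq_or_lt_of_le hs.1 with rfl | hs1
    · exact hfR
    rcases eq_or_lt_of_le hs.2 with rfl | hs2
    · have hcl : s ∈ closure (Ioo R s) := by
        rw [closure_Ioo hs1.ne]
        exact ⟨hs1.le, le_rfl⟩
      have c1 : ContinuousWithinAt f (Ioo R s) s :=
        (hfc s ⟨hs1.le, le_rfl⟩).mono Ioo_subset_Icc_self
      have : (𝓝[Ioo R s] s).NeBot := mem_closure_iff_nhdsWithin_neBot.1 hcl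
      refine tendsto_nhds_unique c1 ?_
      refine tendsto_const_nhds.congr' ?_
      filter_upwards [self_mem_nhdsWithin] with x hx
      exact (hin x hx).symm
    · exact hin s ⟨hs1, hs2⟩
  have := hz r hr
  rw [hf, Prod.ext_iff] at this
  exact ⟨sub_eq_zero.1 this.1, sub_eq_zero.1 this.2⟩

end Vale.Agent.P139.H399
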