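import Mathlib

/-!
# [S1.bdry] boundary algebra for the high frequency inequality chain

All statements are pure complex algebra at one radius.  One component `w` (`u` with `σ = 1`,
`v` with `σ = -1`) with `w1 = - k w + e`, `‖k - k0‖ ≤ eps * kap`, `k0 ^ 2 = s - σ * (I * lam)`,
`0 ≤ Re k0`, `c1 * kap ≤ ‖k0‖`.
-/

open Complex ComplexConjugate

namespace Vale.Agent.P139.H399

/-- boundary data of one component (`σ = 1` for `u = f/Q`, `σ = -1` for `v = g/conj Q`). -/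
structure BdC (σ c1 eps kap s : ℝ) (lam w w1 k k0 e : ℂ) : Prop where
  sgn : σ = 1 ∨ σ = -1
  sq : k0 ^ 2 = (s : ℂ) - (σ : ℂ) * (I * lam)
  re_nonneg : 0 ≤ k0.re
  low : c1 * kap ≤ ‖k0‖
  close : ‖k - k0‖ ≤ eps * kap
  eqn : w1 = -k * w + e

theorem nsq (z : ℂ) : ‖z‖ ^ 2 = z.re ^ 2 + z.im ^ 2 := by
  rw [Complex.sq_norm, Complex.normSq_apply]; ring

/-- Young inequality in the form used below. -/
theorem young_aux {x y t : ℝ} (ht : 0 < t) : x * y ≤ x ^ 2 / t + (t / 4) * y ^ 2 := by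
  have h : 0 ≤ (x - t / 2 * y) ^ 2 / t := by positivity
  have h2 : (x - t / 2 * y) ^ 2 / t = x ^ 2 / t + (t / 4) * y ^ 2 - x * y := by
    field_simp
    ring
  linarith

namespace BdC

variable {σ c1 eps kap s : ℝ} {lam w w1 k k0 e : ℂ}

theorem re_sq (h : BdC σ c1 eps kap s lam w w1 k k0 e) :
    k0.re ^ 2 - k0.im ^ 2 = s + σ * lam.im := by
  have h1 := congrArg Complex.re h.sq
  simp [pow_two] at h1
  nlinarith [h1]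

theorem im_sq (h : BdC σ c1 eps kap s lam w w1 k k0 e) :
    2 * k0.re * k0.im = -(σ * lam.re) := by
  have h1 := congrArg Complex.im h.sq
  simp [pow_two] at h1
  nlinarith [h1]

theorem norm_sq_le (h : BdC σ c1 eps kap s lam w w1 k k0 e) (hs : 0 ≤ s) :
    ‖k0‖ ^ 2 ≤ s + ‖lam‖ := by
  rw [← norm_pow, h.sq]
  refine (norm_sub_le _ _).trans ?_
  rcases h.sgn with h1 | h1 <;> simp [h1, abs_of_nonneg hs]

/-- `w1 * conj w`, real part. -/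
theorem re_mul (h : BdC σ c1 eps kap s lam w w1 k k0 e) :
    (w1 * conj w).re = -k.re * ‖w‖ ^ 2 + (e * conj w).re := by
  rw [h.eqn, nsq w]
  simp
  ring

theorem im_mul (h : BdC σ c1 eps kap s lam w w1 k k0 e) :
    (w1 * conj w).im = -k.im * ‖w‖ ^ 2 + (e * conj w).im := by
  rw [h.eqn, nsq w]
  simp
  ring

theorem norm_e_le : ‖e * conj w‖ ≤ ‖e‖ * ‖w‖ := by simp

theorem re_close (h : BdC σ c1 eps kap s lam w w1 k k0 e) : k0.re - eps * kap ≤ k.re := by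
  have h1 := (Complex.abs_re_le_norm (k - k0)).trans h.close
  rw [Complex.sub_re] at h1
  linarith [(abs_le.1 h1).1]

theorem im_close (h : BdC σ c1 eps kap s lam w w1 k k0 e) : |k0.im| - eps * kap ≤ |k.im| := by
  have h1 := (Complex.abs_im_le_norm (k - k0)).trans h.close
  rw [Complex.sub_im] at h1
  have h2 : |k0.im| ≤ |k.im| + |k.im - k0.im| := by
    have := abs_sub_abs_le_abs_sub k0.im k.im
    rw [abs_sub_comm] at this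
    linarith
  linarith

/-- **(B1)** -/
theorem B1 (h : BdC σ c1 eps kap s lam w w1 k k0 e) {Cs Mb : ℝ} (hM : 0 ≤ Mb)
    (hk : 0 ≤ kap) (he : eps ≤ 1) (hs : 0 ≤ s) (hsC : s ≤ Cs * kap ^ 2)
    (hl : ‖lam‖ ≤ kap ^ 2) :
    Mb * ‖w1‖ ^ 2 ≤ (4 * Cs + 8) * kap ^ 2 * (Mb * ‖w‖ ^ 2) + 2 * (Mb * ‖e‖ ^ 2) := by
  have h1 : ‖w1‖ ≤ ‖k‖ * ‖w‖ + ‖e‖ := by
    rw [h.eqn]; refine (norm_add_le _ _).trans ?_; simp
  have h2 : ‖k‖ ≤ ‖k0‖ + kap := by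
    have : ‖k‖ ≤ ‖k - k0‖ + ‖k0‖ := by
      calc ‖k‖ = ‖(k - k0) + k0‖ := by ring_nf
        _ ≤ _ := norm_add_le _ _
    have h3 : eps * kap ≤ 1 * kap := mul_le_mul_of_nonneg_right he hk
    linarith [h.close]
  have h3 := h.norm_sq_le hs
  have h4 : ‖k‖ ^ 2 ≤ (2 * Cs + 4) * kap ^ 2 := by
    have : ‖k‖ ^ 2 ≤ (‖k0‖ + kap) ^ 2 := pow_le_pow_left₀ (norm_nonneg _) h2 2
    nlinarith [sq_nonneg (‖k0‖ - kap)]
  have h5 : ‖w1‖ ^ 2 ≤ 2 * ‖k‖ ^ 2 * ‖w‖ ^ 2 + 2 * ‖e‖ ^ 2 := by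
    have : ‖w1‖ ^ 2 ≤ (‖k‖ * ‖w‖ + ‖e‖) ^ 2 := pow_le_pow_left₀ (norm_nonneg _) h1 2
    nlinarith [sq_nonneg (‖k‖ * ‖w‖ - ‖e‖)]
  have h6 : ‖w1‖ ^ 2 ≤ 2 * ((2 * Cs + 4) * kap ^ 2) * ‖w‖ ^ 2 + 2 * ‖e‖ ^ 2 := by
    have : 2 * ‖k‖ ^ 2 * ‖w‖ ^ 2 ≤ 2 * ((2 * Cs + 4) * kap ^ 2) * ‖w‖ ^ 2 := by
      gcongr
    linarith
  have := mul_le_mul_of_nonneg_left h6 hM
  nlinarith [this]

/-- **(B2, first part) `Ev`** : if `Re k0² = s + σ Im lam ≥ (c kap)²`. -/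
theorem Ev (h : BdC σ c1 eps kap s lam w w1 k k0 e) {c Mb : ℝ} (hM : 0 ≤ Mb)
    (hk : 0 < kap) (hc : 0 < c) (he : eps ≤ c / 4)
    (hev : (c * kap) ^ 2 ≤ s + σ * lam.im) :
    (c / 2) * kap * (Mb * ‖w‖ ^ 2) + Mb * (w1 * conj w).re ≤ (Mb * ‖e‖ ^ 2) / (c * kap) := by
  have h1 : c * kap ≤ k0.re := by
    have h2 : (c * kap) ^ 2 ≤ k0.re ^ 2 := by
      have := h.re_sq
      nlinarith [sq_nonneg k0.im]
    exact le_of_sq_le_sq h2 h.re_nonneg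
  have h3 := h.re_close
  have h4 : eps * kap ≤ c / 4 * kap := mul_le_mul_of_nonneg_right he hk.le
  have h5 : (e * conj w).re ≤ ‖e‖ ^ 2 / (c * kap) + (c * kap / 4) * ‖w‖ ^ 2 :=
    ((Complex.re_le_norm _).trans norm_e_le).trans (young_aux (by positivity))
  have h6 : (c / 2) * kap * ‖w‖ ^ 2 + (w1 * conj w).re ≤ ‖e‖ ^ 2 / (c * kap) := by
    rw [h.re_mul]
    have h7 : (3 / 4 * (c * kap)) * ‖w‖ ^ 2 ≤ k.re * ‖w‖ ^ 2 := by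
      apply mul_le_mul_of_nonneg_right _ (by positivity)
      linarith
    nlinarith
  have := mul_le_mul_of_nonneg_left h6 hM
  calc _ = Mb * ((c / 2) * kap * ‖w‖ ^ 2 + (w1 * conj w).re) := by ring
    _ ≤ _ := this
    _ = _ := by ring

/-- in the non-`Ev` case `|Im k0| ≥ (c1/2) kap`. -/
theorem im_low (h : BdC σ c1 eps kap s lam w w1 k k0 e) {c3 : ℝ}
    (hk : 0 ≤ kap) (hc1 : 0 ≤ c1) (hc3 : c3 ≤ c1 ^ 2 / 2) (hos : s + σ * lam.im < c3 * kap ^ 2) :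
    c1 / 2 * kap ≤ |k0.im| := by
  have h1 : (c1 * kap) ^ 2 ≤ ‖k0‖ ^ 2 := pow_le_pow_left₀ (by positivity) h.low 2
  rw [nsq k0] at h1
  have h2 := h.re_sq
  have h3 : c3 * kap ^ 2 ≤ c1 ^ 2 / 2 * kap ^ 2 := mul_le_mul_of_nonneg_right hc3 (by positivity)
  have h4 : (c1 / 2 * kap) ^ 2 ≤ |k0.im| ^ 2 := by
    rw [sq_abs]; nlinarith
  exact le_of_sq_le_sq h4 (abs_nonneg _)

/-- **(B3) `Os`** -/
theorem Os (h : BdC σ c1 eps kap s lam w w1 k k0 e) {c3 Mb : ℝ} (hM : 0 ≤ Mb)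
    (hk : 0 < kap) (hc1 : 0 < c1) (hc3 : c3 ≤ c1 ^ 2 / 2) (he : eps ≤ c1 / 8)
    (hos : s + σ * lam.im < c3 * kap ^ 2) :
    (c1 / 4) * kap * (Mb * ‖w‖ ^ 2) ≤
      Mb * |(w1 * conj w).im| + (Mb * ‖e‖ ^ 2) / (c1 / 2 * kap) := by
  have h1 := h.im_low hk.le hc1.le hc3 hos
  have h3 := h.im_close
  have h4 : eps * kap ≤ c1 / 8 * kap := mul_le_mul_of_nonneg_right he hk.le
  have h5 : |(e * conj w).im| ≤ ‖e‖ ^ 2 / (c1 / 2 * kap) + (c1 / 2 * kap / 4) * ‖w‖ ^ 2 :=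
    ((Complex.abs_im_le_norm _).trans norm_e_le).trans (young_aux (by positivity))
  have h6 : (c1 / 4) * kap * ‖w‖ ^ 2 ≤ |(w1 * conj w).im| + ‖e‖ ^ 2 / (c1 / 2 * kap) := by
    have h7 : |k.im| * ‖w‖ ^ 2 ≤ |(w1 * conj w).im| + |(e * conj w).im| := by
      have h8 : -k.im * ‖w‖ ^ 2 = (w1 * conj w).im - (e * conj w).im := by
        rw [h.im_mul]; ring
      calc |k.im| * ‖w‖ ^ 2 = |-k.im * ‖w‖ ^ 2| := by
            rw [abs_mul, abs_neg, abs_of_nonneg (by positivity : (0:ℝ) ≤ ‖w‖ ^ 2)]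
        _ = |(w1 * conj w).im - (e * conj w).im| := by rw [h8]
        _ ≤ _ := abs_sub _ _
    have h9 : (3 / 4 * (c1 / 2 * kap)) * ‖w‖ ^ 2 ≤ |k.im| * ‖w‖ ^ 2 := by
      apply mul_le_mul_of_nonneg_right _ (by positivity)
      linarith
    nlinarith
  have := mul_le_mul_of_nonneg_left h6 hM
  calc _ = Mb * ((c1 / 4) * kap * ‖w‖ ^ 2) := by ring
    _ ≤ _ := this
    _ = _ := by ring

/-- exact identity `Re(conj lam * k0) = (|k0|² + s) |Im k0|` for both components. -/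
theorem re_conj_lam_mul (h : BdC σ c1 eps kap s lam w w1 k k0 e) (hre : 0 < lam.re) :
    (conj lam * k0).re = (‖k0‖ ^ 2 + s) * |k0.im| := by
  have h1 := h.re_sq
  have h2 := h.im_sq
  have hp : 0 < k0.re := by
    rcases h.re_nonneg.lt_or_eq with h3 | h3
    · exact h3
    · rw [← h3] at h2
      rcases h.sgn with h4 | h4 <;> rw [h4] at h2 <;> linarith
  have h5 : |k0.im| = -σ * k0.im := by
    rcases h.sgn with h4 | h4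
    · rw [h4] at h2 ⊢
      have : k0.im < 0 := by
        by_contra hcon
        push Not at hcon
        nlinarith [mul_nonneg hp.le hcon]
      rw [abs_of_neg this]; ring
    · rw [h4] at h2 ⊢
      have : 0 < k0.im := by
        by_contra hcon
        push Not at hcon
        nlinarith [mul_nonneg hp.le (neg_nonneg.2 hcon)]
      rw [abs_of_pos this]; ring
  rw [h5, nsq k0]
  have h6 : (conj lam * k0).re = lam.re * k0.re + lam.im * k0.im := by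
    simp [Complex.mul_re]
  rw [h6]
  have hs2 : σ * σ = 1 := by rcases h.sgn with h4 | h4 <;> rw [h4] <;> norm_num
  have h7 : lam.re = -σ * (2 * k0.re * k0.im) := by
    rw [h2]; linear_combination (-lam.re) * hs2
  have h8 : lam.im = σ * (k0.re ^ 2 - k0.im ^ 2 - s) := by
    rw [h1]; linear_combination (-lam.im) * hs2
  rw [h7, h8]
  ring

/-- **(B3) `EnS`** : the energy boundary functional of a non-`Ev` component is very negative. -/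
theorem EnS (h : BdC σ c1 eps kap s lam w w1 k k0 e) {c3 Cs Mb X X0 : ℝ} (hM : 0 ≤ Mb)
    (hk : 1 ≤ kap) (hc1 : 0 < c1) (hc3 : c3 ≤ c1 ^ 2 / 2) (he1 : eps ≤ 1)
    (he : eps ≤ c1 ^ 3 / 8) (hs : 0 ≤ s) (hsC : s ≤ Cs * kap ^ 2) (hl : ‖lam‖ ≤ kap ^ 2)
    (hre : 0 < lam.re) (hX : |X| ≤ X0) (hK : X0 / 4 * (5 * Cs + 8) ≤ c1 ^ 3 / 16 * kap)
    (hos : s + σ * lam.im < c3 * kap ^ 2) :
    (X / 4) * (Mb * ‖w1‖ ^ 2 - s * (Mb * ‖w‖ ^ 2)) + (1 / 2) * (Mb * (conj lam * w1 * conj w).re)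
      ≤ -(c1 ^ 3 / 16 * kap ^ 3 * (Mb * ‖w‖ ^ 2)) + (X0 / 2 + kap / c1 ^ 3) * (Mb * ‖e‖ ^ 2) := by
  have hk0 : 0 < kap := by linarith
  have hB1 := h.B1 hM hk0.le he1 hs hsC hl
  have hX0 : 0 ≤ X0 := (abs_nonneg X).trans hX
  set S : ℝ := Mb * ‖w‖ ^ 2 with hS
  set T : ℝ := Mb * ‖w1‖ ^ 2 with hT
  set R : ℝ := Mb * ‖e‖ ^ 2 with hR
  have hS0 : 0 ≤ S := by positivity
  have hT0 : 0 ≤ T := by positivity
  have hR0 : 0 ≤ R := by positivity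
  -- the `X` part
  have hXp : (X / 4) * (T - s * S) ≤ X0 / 4 * ((5 * Cs + 8) * kap ^ 2 * S + 2 * R) := by
    have h1 : (X / 4) * (T - s * S) ≤ X0 / 4 * (T + s * S) := by
      have h2 : |(X / 4) * (T - s * S)| ≤ X0 / 4 * (T + s * S) := by
        rw [abs_mul]
        apply mul_le_mul
        · rw [abs_div]; norm_num; linarith
        · rw [abs_le]; constructor <;> nlinarith [mul_nonneg hs hS0]
        · positivity
        · positivity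
      exact (le_abs_self _).trans h2
    have h3 : s * S ≤ Cs * kap ^ 2 * S := mul_le_mul_of_nonneg_right hsC hS0
    have h4 : X0 / 4 * (T + s * S) ≤ X0 / 4 * ((5 * Cs + 8) * kap ^ 2 * S + 2 * R) := by
      apply mul_le_mul_of_nonneg_left _ (by positivity)
      nlinarith
    exact h1.trans h4
  -- the pairing part
  have hid : (conj lam * w1 * conj w).re =
      -(conj lam * k0).re * ‖w‖ ^ 2 - (conj lam * (k - k0)).re * ‖w‖ ^ 2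
        + (conj lam * (e * conj w)).re := by
    rw [h.eqn, nsq w]
    simp
    ring
  have h1 : c1 ^ 3 / 2 * kap ^ 3 ≤ (conj lam * k0).re := by
    rw [h.re_conj_lam_mul hre]
    have h2 : (c1 * kap) ^ 2 ≤ ‖k0‖ ^ 2 + s := by
      have : (c1 * kap) ^ 2 ≤ ‖k0‖ ^ 2 := pow_le_pow_left₀ (by positivity) h.low 2
      linarith
    have h3 := h.im_low hk0.le hc1.le hc3 hos
    calc c1 ^ 3 / 2 * kap ^ 3 = (c1 * kap) ^ 2 * (c1 / 2 * kap) := by ring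
      _ ≤ _ := mul_le_mul h2 h3 (by positivity) (by positivity)
  have h2 : |(conj lam * (k - k0)).re| ≤ c1 ^ 3 / 8 * kap ^ 3 := by
    have : ‖conj lam * (k - k0)‖ ≤ kap ^ 2 * (c1 ^ 3 / 8 * kap) := by
      rw [norm_mul, Complex.norm_conj]
      apply mul_le_mul hl _ (norm_nonneg _) (by positivity)
      exact h.close.trans (mul_le_mul_of_nonneg_right he hk0.le)
    refine (Complex.abs_re_le_norm _).trans (this.trans (le_of_eq (by ring)))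
  have h3 : (conj lam * (e * conj w)).re ≤
      kap ^ 2 * (‖e‖ ^ 2 / (c1 ^ 3 / 2 * kap) + (c1 ^ 3 / 2 * kap / 4) * ‖w‖ ^ 2) := by
    refine (Complex.re_le_norm _).trans ?_
    rw [norm_mul, Complex.norm_conj]
    apply mul_le_mul hl _ (norm_nonneg _) (by positivity)
    exact norm_e_le.trans (young_aux (by positivity))
  have h4 : (conj lam * w1 * conj w).re ≤
      -(c1 ^ 3 / 4 * kap ^ 3 * ‖w‖ ^ 2) + 2 * kap / c1 ^ 3 * ‖e‖ ^ 2 := by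
    rw [hid]
    have h5 : c1 ^ 3 / 2 * kap ^ 3 * ‖w‖ ^ 2 ≤ (conj lam * k0).re * ‖w‖ ^ 2 :=
      mul_le_mul_of_nonneg_right h1 (by positivity)
    have h6 : -(conj lam * (k - k0)).re * ‖w‖ ^ 2 ≤ c1 ^ 3 / 8 * kap ^ 3 * ‖w‖ ^ 2 :=
      mul_le_mul_of_nonneg_right ((neg_le_abs _).trans h2) (by positivity)
    have h7 : kap ^ 2 * (‖e‖ ^ 2 / (c1 ^ 3 / 2 * kap) + (c1 ^ 3 / 2 * kap / 4) * ‖w‖ ^ 2) =
        2 * kap / c1 ^ 3 * ‖e‖ ^ 2 + c1 ^ 3 / 8 * kap ^ 3 * ‖w‖ ^ 2 := by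
      field_simp
      ring
    rw [h7] at h3
    linarith
  have h5 : Mb * (conj lam * w1 * conj w).re ≤ -(c1 ^ 3 / 4 * kap ^ 3 * S) + 2 * kap / c1 ^ 3 * R := by
    have := mul_le_mul_of_nonneg_left h4 hM
    calc _ ≤ _ := this
      _ = _ := by rw [hS, hR]; ring
  have h6 : X0 / 4 * ((5 * Cs + 8) * kap ^ 2 * S) ≤ c1 ^ 3 / 16 * kap ^ 3 * S := by
    have := mul_le_mul_of_nonneg_right hK (by positivity : 0 ≤ kap ^ 2 * S)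
    calc _ = X0 / 4 * (5 * Cs + 8) * (kap ^ 2 * S) := by ring
      _ ≤ _ := this
      _ = _ := by ring
  have h7 : (1 / 2) * (2 * kap / c1 ^ 3 * R) = kap / c1 ^ 3 * R := by ring
  nlinarith

/-- non-`Ev` forces `kap² ≤ C |lam|`. -/
theorem kap_le_nu (h : BdC σ c1 eps kap s lam w w1 k k0 e) {c3 b L : ℝ} (hb : 0 < b)
    (hs : s = L / b ^ 2) (hkap : kap ^ 2 = 1 + ‖lam‖ + L) (h4 : 4 ≤ kap ^ 2)
    (hc3 : c3 * b ^ 2 ≤ 1 / 2) (hos : s + σ * lam.im < c3 * kap ^ 2) :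
    kap ^ 2 ≤ 4 * (1 + b ^ 2) * ‖lam‖ := by
  have h1 : -‖lam‖ ≤ σ * lam.im := by
    have h2 := abs_le.1 (Complex.abs_im_le_norm lam)
    rcases h.sgn with h3 | h3 <;> rw [h3] <;> linarith [h2.1, h2.2]
  have h5 : s < c3 * kap ^ 2 + ‖lam‖ := by linarith
  have h6 : L = s * b ^ 2 := by rw [hs]; field_simp
  have h7 : L ≤ (c3 * kap ^ 2 + ‖lam‖) * b ^ 2 := by
    rw [h6]; exact mul_le_mul_of_nonneg_right h5.le (by positivity)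
  have h8 : c3 * b ^ 2 * kap ^ 2 ≤ 1 / 2 * kap ^ 2 := mul_le_mul_of_nonneg_right hc3 (by positivity)
  nlinarith

end BdC

/-- if `Re lam` is bounded, one of the two components is `Ev` for large `kap`. -/
theorem not_both {kap s c3 b L c0 : ℝ} {lam : ℂ} (hb : 0 < b) (hL : 0 ≤ L)
    (hs : s = L / b ^ 2) (hkap : kap ^ 2 = 1 + ‖lam‖ + L) (hc3 : c3 * (1 + b ^ 2) ≤ 1 / 2)
    (hre0 : 0 ≤ lam.re) (hre : lam.re ≤ c0 + 1) (hK : 2 * (c0 + 2) < kap ^ 2) :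
    c3 * kap ^ 2 ≤ s + lam.im ∨ c3 * kap ^ 2 ≤ s - lam.im := by
  by_contra hcon
  push Not at hcon
  obtain ⟨h1, h2⟩ := hcon
  have h6 : L = s * b ^ 2 := by rw [hs]; field_simp
  have hs0 : 0 ≤ s := by rw [hs]; positivity
  have h3 : |lam.im| ≤ c3 * kap ^ 2 - s := by rw [abs_le]; constructor <;> linarith
  have h4 : ‖lam‖ ≤ |lam.re| + |lam.im| := Complex.norm_le_abs_re_add_abs_im lam
  rw [abs_of_nonneg hre0] at h4
  have h5 : s ≤ c3 * kap ^ 2 := by linarith [abs_nonneg lam.im]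
  have h7 : s * b ^ 2 ≤ c3 * kap ^ 2 * b ^ 2 := mul_le_mul_of_nonneg_right h5 (by positivity)
  have h8 : c3 * (1 + b ^ 2) * kap ^ 2 ≤ 1 / 2 * kap ^ 2 :=
    mul_le_mul_of_nonneg_right hc3 (by positivity)
  nlinarith

namespace BdC

variable {σ c1 eps kap s : ℝ} {lam w w1 k k0 e : ℂ}

theorem pkg_B1 (h : BdC σ c1 eps kap s lam w w1 k k0 e) {Cs Mb C : ℝ} (hM : 0 ≤ Mb)
    (hk : 0 ≤ kap) (he : eps ≤ 1) (hs : 0 ≤ s) (hsC : s ≤ Cs * kap ^ 2)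
    (hl : ‖lam‖ ≤ kap ^ 2) (hCs : 0 ≤ Cs) (hC : 4 * Cs + 8 ≤ C) :
    Mb * ‖w1‖ ^ 2 ≤ C * kap ^ 2 * (Mb * ‖w‖ ^ 2) + C * (Mb * ‖e‖ ^ 2) := by
  have h1 := h.B1 hM hk he hs hsC hl
  have h2 : (4 * Cs + 8) * kap ^ 2 * (Mb * ‖w‖ ^ 2) ≤ C * kap ^ 2 * (Mb * ‖w‖ ^ 2) := by gcongr
  have h3 : 2 * (Mb * ‖e‖ ^ 2) ≤ C * (Mb * ‖e‖ ^ 2) :=
    mul_le_mul_of_nonneg_right (by linarith) (by positivity)
  linarith

theorem pkg_Ev (h : BdC σ c1 eps kap s lam w w1 k k0 e) {c c' Mb C : ℝ} (hM : 0 ≤ Mb)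
    (hk : 1 ≤ kap) (hc : 0 < c) (hc2 : c' ≤ c / 4) (he : eps ≤ c')
    (hC : 1 / c ≤ C) (hev : c ^ 2 * kap ^ 2 ≤ s + σ * lam.im) :
    c' * kap * (Mb * ‖w‖ ^ 2) + Mb * (w1 * conj w).re ≤ C * (Mb * ‖e‖ ^ 2) := by
  have hk0 : 0 < kap := by linarith
  have hR : 0 ≤ Mb * ‖e‖ ^ 2 := by positivity
  have h1 := h.Ev hM hk0 hc (he.trans hc2) (by rw [mul_pow]; exact hev)
  have h2 : c' * kap * (Mb * ‖w‖ ^ 2) ≤ c / 2 * kap * (Mb * ‖w‖ ^ 2) := by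
    have : c' ≤ c / 2 := by linarith
    gcongr
  have h3 : (Mb * ‖e‖ ^ 2) / (c * kap) ≤ C * (Mb * ‖e‖ ^ 2) := by
    have h4 : (Mb * ‖e‖ ^ 2) / (c * kap) ≤ (Mb * ‖e‖ ^ 2) / c :=
      div_le_div_of_nonneg_left hR hc (le_mul_of_one_le_right hc.le hk)
    have h5 : (Mb * ‖e‖ ^ 2) / c = 1 / c * (Mb * ‖e‖ ^ 2) := by ring
    have h6 : 1 / c * (Mb * ‖e‖ ^ 2) ≤ C * (Mb * ‖e‖ ^ 2) := mul_le_mul_of_nonneg_right hC hR
    linarith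
  linarith

theorem pkg_Os (h : BdC σ c1 eps kap s lam w w1 k k0 e) {c3 c' Mb C : ℝ} (hM : 0 ≤ Mb)
    (hk : 1 ≤ kap) (hc1 : 0 < c1) (hc3 : c3 ≤ c1 ^ 2 / 2) (hc2 : c' ≤ c1 / 8) (he : eps ≤ c')
    (hC : 2 / c1 ≤ C) (hos : s + σ * lam.im < c3 * kap ^ 2) :
    c' * kap * (Mb * ‖w‖ ^ 2) ≤ Mb * |(w1 * conj w).im| + C * (Mb * ‖e‖ ^ 2) := by
  have hk0 : 0 < kap := by linarith
  have hR : 0 ≤ Mb * ‖e‖ ^ 2 := by positivity
  have h1 := h.Os hM hk0 hc1 hc3 (he.trans hc2) hos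
  have h2 : c' * kap * (Mb * ‖w‖ ^ 2) ≤ c1 / 4 * kap * (Mb * ‖w‖ ^ 2) := by
    have : c' ≤ c1 / 4 := by linarith
    gcongr
  have h3 : (Mb * ‖e‖ ^ 2) / (c1 / 2 * kap) ≤ C * (Mb * ‖e‖ ^ 2) := by
    have h4 : (Mb * ‖e‖ ^ 2) / (c1 / 2 * kap) ≤ (Mb * ‖e‖ ^ 2) / (c1 / 2) :=
      div_le_div_of_nonneg_left hR (by positivity) (le_mul_of_one_le_right (by positivity) hk)
    have h5 : (Mb * ‖e‖ ^ 2) / (c1 / 2) = 2 / c1 * (Mb * ‖e‖ ^ 2) := by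
      field_simp
    have h6 : 2 / c1 * (Mb * ‖e‖ ^ 2) ≤ C * (Mb * ‖e‖ ^ 2) := mul_le_mul_of_nonneg_right hC hR
    linarith
  linarith

theorem pkg_EnS (h : BdC σ c1 eps kap s lam w w1 k k0 e) {c3 c' Cs Mb X X0 C : ℝ} (hM : 0 ≤ Mb)
    (hk : 1 ≤ kap) (hc1 : 0 < c1) (hc3 : c3 ≤ c1 ^ 2 / 2) (he1 : eps ≤ 1)
    (hc2 : c' ≤ c1 ^ 3 / 16) (he : eps ≤ c') (hs : 0 ≤ s) (hsC : s ≤ Cs * kap ^ 2)
    (hl : ‖lam‖ ≤ kap ^ 2) (hre : 0 < lam.re) (hX : |X| ≤ X0)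
    (hK : X0 / 4 * (5 * Cs + 8) / (c1 ^ 3 / 16) ≤ kap) (hC : X0 / 2 + 1 / c1 ^ 3 ≤ C)
    (hos : s + σ * lam.im < c3 * kap ^ 2) :
    (X / 4) * (Mb * ‖w1‖ ^ 2 - s * (Mb * ‖w‖ ^ 2)) + (1 / 2) * (Mb * (conj lam * w1 * conj w).re)
      ≤ -(c' * kap ^ 3 * (Mb * ‖w‖ ^ 2)) + C * kap * (Mb * ‖e‖ ^ 2) := by
  have hk0 : 0 < kap := by linarith
  have hR : 0 ≤ Mb * ‖e‖ ^ 2 := by positivity
  have hc13 : 0 < c1 ^ 3 := by positivity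
  have hX0 : 0 ≤ X0 := (abs_nonneg X).trans hX
  have hKK : X0 / 4 * (5 * Cs + 8) ≤ c1 ^ 3 / 16 * kap := by
    rw [div_le_iff₀ (by positivity)] at hK
    linarith
  have h1 := h.EnS hM hk hc1 hc3 he1 (by linarith) hs hsC hl hre hX hKK hos
  refine h1.trans ?_
  have h2 : c' * kap ^ 3 * (Mb * ‖w‖ ^ 2) ≤ c1 ^ 3 / 16 * kap ^ 3 * (Mb * ‖w‖ ^ 2) := by
    gcongr
  have h3 : (X0 / 2 + kap / c1 ^ 3) * (Mb * ‖e‖ ^ 2) ≤ C * kap * (Mb * ‖e‖ ^ 2) := by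
    apply mul_le_mul_of_nonneg_right _ hR
    have h4 : X0 / 2 + kap / c1 ^ 3 ≤ (X0 / 2 + 1 / c1 ^ 3) * kap := by
      have h5 : kap / c1 ^ 3 = 1 / c1 ^ 3 * kap := by ring
      have h6 : X0 / 2 ≤ X0 / 2 * kap := le_mul_of_one_le_right (by positivity) hk
      linarith
    exact h4.trans (mul_le_mul_of_nonneg_right hC hk0.le)
  linarith

end BdC

theorem pkg_const (rb : ℝ) {c1 : ℝ} (hc1 : 0 < c1) :
    ∃ c : ℝ, 0 < c ∧ c ^ 2 * (1 + rb ^ 2) ≤ 1 / 2 ∧ c ^ 2 ≤ c1 ^ 2 / 2 := by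
  set m := min (1 / (2 * (1 + rb ^ 2))) (min 1 (c1 / 2)) with hm
  have h0 : 0 < m := by positivity
  have h1 : m ≤ 1 / (2 * (1 + rb ^ 2)) := min_le_left _ _
  have h2 : m ≤ 1 := (min_le_right _ _).trans (min_le_left _ _)
  have h1' : m ≤ c1 / 2 := (min_le_right _ _).trans (min_le_right _ _)
  refine ⟨m, h0, ?_, ?_⟩
  · have h3 : m ^ 2 ≤ m := by nlinarith
    have h4 : m ^ 2 * (1 + rb ^ 2) ≤ 1 / (2 * (1 + rb ^ 2)) * (1 + rb ^ 2) :=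
      mul_le_mul_of_nonneg_right (h3.trans h1) (by positivity)
    have h5 : 1 / (2 * (1 + rb ^ 2)) * (1 + rb ^ 2) = 1 / 2 := by
      have : (1 + rb ^ 2) ≠ 0 := by positivity
      field_simp
    linarith
  · nlinarith

/-- **Package** for the chain: all constants depend only on `ra, rb` (the range of the boundary
radius), `c1, X0, c0`. -/
theorem bdry_package {ra rb : ℝ} (hra : 0 < ra) {c1 : ℝ} (hc1 : 0 < c1) {X0 c0 : ℝ}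
    (hX0 : 0 ≤ X0) (hc0 : 0 ≤ c0) :
    ∃ C c c3 K0 : ℝ, 0 < C ∧ 0 < c ∧ 0 < c3 ∧ 1 ≤ K0 ∧
      ∀ (b L kap eps s X Mb : ℝ) (lam : ℂ), ra ≤ b → b ≤ rb → 0 ≤ L → s = L / b ^ 2 →
        kap ^ 2 = 1 + ‖lam‖ + L → K0 ≤ kap → eps ≤ c → |X| ≤ X0 → 0 ≤ Mb → 0 ≤ lam.re →
        (∀ (σ : ℝ) (w w1 k k0 e : ℂ), BdC σ c1 eps kap s lam w w1 k k0 e →
          (Mb * ‖w1‖ ^ 2 ≤ C * kap ^ 2 * (Mb * ‖w‖ ^ 2) + C * (Mb * ‖e‖ ^ 2)) ∧
          (c3 * kap ^ 2 ≤ s + σ * lam.im →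
            c * kap * (Mb * ‖w‖ ^ 2) + Mb * (w1 * conj w).re ≤ C * (Mb * ‖e‖ ^ 2)) ∧
          (s + σ * lam.im < c3 * kap ^ 2 →
            kap ^ 2 ≤ C * ‖lam‖ ∧
            c * kap * (Mb * ‖w‖ ^ 2) ≤ Mb * |(w1 * conj w).im| + C * (Mb * ‖e‖ ^ 2) ∧
            (0 < lam.re →
              (X / 4) * (Mb * ‖w1‖ ^ 2 - s * (Mb * ‖w‖ ^ 2))
                + (1 / 2) * (Mb * (conj lam * w1 * conj w).re)
              ≤ -(c * kap ^ 3 * (Mb * ‖w‖ ^ 2)) + C * kap * (Mb * ‖e‖ ^ 2)))) ∧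
        (lam.re ≤ c0 + 1 → c3 * kap ^ 2 ≤ s + lam.im ∨ c3 * kap ^ 2 ≤ s - lam.im) := by
  obtain ⟨c, hc, hcb, hcc1⟩ := pkg_const rb hc1
  obtain ⟨Cs, hCs⟩ : ∃ Cs : ℝ, Cs = 1 / ra ^ 2 := ⟨_, rfl⟩
  have hCs0 : 0 ≤ Cs := by rw [hCs]; positivity
  obtain ⟨c', hc'0, hc'1, hc'2, hc'3, hc'4⟩ : ∃ c' : ℝ, 0 < c' ∧ c' ≤ c / 4 ∧ c' ≤ c1 / 8 ∧
      c' ≤ 1 ∧ c' ≤ c1 ^ 3 / 16 :=
    ⟨min (min (c / 4) (c1 / 8)) (min 1 (c1 ^ 3 / 16)), by positivity,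
      (min_le_left _ _).trans (min_le_left _ _), (min_le_left _ _).trans (min_le_right _ _),
      (min_le_right _ _).trans (min_le_left _ _), (min_le_right _ _).trans (min_le_right _ _)⟩
  obtain ⟨C, hC0, hC1, hC2, hC3, hC4, hC5⟩ : ∃ C : ℝ, 0 < C ∧ 4 * Cs + 8 ≤ C ∧ 1 / c ≤ C ∧
      2 / c1 ≤ C ∧ X0 / 2 + 1 / c1 ^ 3 ≤ C ∧ 4 * (1 + rb ^ 2) ≤ C := by
    have p1 : 0 < 1 / c := by positivity
    have p2 : 0 < 2 / c1 := by positivity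
    have p3 : 0 < X0 / 2 + 1 / c1 ^ 3 := by positivity
    have p4 : 0 < 4 * (1 + rb ^ 2) := by positivity
    refine ⟨4 * Cs + 8 + 1 / c + 2 / c1 + (X0 / 2 + 1 / c1 ^ 3) + 4 * (1 + rb ^ 2),
      ?_, ?_, ?_, ?_, ?_, ?_⟩ <;> linarith
  have hXK : 0 ≤ X0 / 4 * (5 * Cs + 8) / (c1 ^ 3 / 16) := by positivity
  refine ⟨C, c', c ^ 2, 2 + 2 * (c0 + 2) + X0 / 4 * (5 * Cs + 8) / (c1 ^ 3 / 16), hC0, hc'0,
    by positivity, by linarith, ?_⟩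
  intro b L kap eps s X Mb lam hb1 hb2 hL hs hkap hK heps hX hM hre0
  have hb : 0 < b := hra.trans_le hb1
  have hk1 : 2 + 2 * (c0 + 2) ≤ kap := by linarith
  have hk1' : 1 ≤ kap := by linarith
  have hk0 : 0 < kap := by linarith
  have hs0 : 0 ≤ s := by rw [hs]; positivity
  have hlk : ‖lam‖ ≤ kap ^ 2 := by linarith
  have hsC : s ≤ Cs * kap ^ 2 := by
    have h1 : L ≤ kap ^ 2 := by linarith [norm_nonneg lam]
    have h2 : L / b ^ 2 ≤ kap ^ 2 / ra ^ 2 := by gcongr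
    rw [hs]
    calc L / b ^ 2 ≤ kap ^ 2 / ra ^ 2 := h2
      _ = _ := by rw [hCs]; ring
  have hbr : b ^ 2 ≤ rb ^ 2 := by gcongr
  have hcb' : c ^ 2 * (1 + b ^ 2) ≤ 1 / 2 := by
    have : c ^ 2 * (1 + b ^ 2) ≤ c ^ 2 * (1 + rb ^ 2) := by gcongr
    linarith
  have hcb2 : c ^ 2 * b ^ 2 ≤ 1 / 2 := by linarith [sq_nonneg c]
  have hkk : kap ≤ kap ^ 2 := by rw [pow_two]; exact le_mul_of_one_le_right hk0.le hk1'
  have h4k : 4 ≤ kap ^ 2 := by linarith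
  have h5k : 2 * (c0 + 2) < kap ^ 2 := by linarith
  refine ⟨fun σ w w1 k k0 e h => ⟨?_, ?_, fun hos => ⟨?_, ?_, fun hre => ?_⟩⟩, fun hre => ?_⟩
  · exact h.pkg_B1 hM hk0.le (heps.trans hc'3) hs0 hsC hlk hCs0 hC1
  · exact h.pkg_Ev hM hk1' hc hc'1 heps hC2
  · exact (h.kap_le_nu hb hs hkap h4k hcb2 hos).trans
      (mul_le_mul_of_nonneg_right (le_trans (by linarith) hC5) (norm_nonneg _))
  · exact h.pkg_Os hM hk1' hc1 hcc1 hc'2 heps hC3 hos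
  · exact h.pkg_EnS hM hk1' hc1 hcc1 (heps.trans hc'3) hc'4 heps hs0 hsC hlk hre hX
      (by linarith) hC4 hos
  · exact not_both hb hL hs hkap hcb' hre0 hre h5k

end Vale.Agent.P139.H399
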