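import Vale.Agent.P139.H607.BdData
import Vale.Agent.P139.H399.Bdry

/-!
# [S1.bdry] adapter: from `H607.BdAt` at one of two radii to the boundary inequalities
-/

open Complex ComplexConjugate Vale.Agent.P139.H498 Vale.Agent.P139.H607

namespace Vale.Agent.P139.H399

/-- boundary inequalities of one component (`σ = 1`: `u = gf q F`, `σ = -1`: `v = gf (conj q) G`),
with `D` the size of the weighted error. -/
structure BdOut (C c c3 kap s D Mb X : ℝ) (lam : ℂ) (σ : ℝ) (w w1 : ℂ) : Prop where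
  T_le : Mb * normSq w1 ≤ C * kap ^ 2 * (Mb * normSq w) + C * D
  ev : c3 * kap ^ 2 ≤ s + σ * lam.im →
    c * kap * (Mb * normSq w) + Mb * (w1 * conj w).re ≤ C * D
  nu : s + σ * lam.im < c3 * kap ^ 2 → kap ^ 2 ≤ C * ‖lam‖
  os : s + σ * lam.im < c3 * kap ^ 2 →
    c * kap * (Mb * normSq w) ≤ Mb * |(w1 * conj w).im| + C * D
  en : s + σ * lam.im < c3 * kap ^ 2 → 0 < lam.re →
    (X / 4) * (Mb * normSq w1 - s * (Mb * normSq w)) + (1 / 2) * (Mb * (conj lam * w1 * conj w).re)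
      ≤ -(c * kap ^ 3 * (Mb * normSq w)) + C * kap * D

theorem low_aux {c1 kap : ℝ} {k : ℂ} (h : c1 ^ 2 * kap ^ 2 ≤ ‖k‖ ^ 2) : c1 * kap ≤ ‖k‖ := by
  have h2 : (c1 * kap) ^ 2 ≤ ‖k‖ ^ 2 := by rw [mul_pow]; exact h
  exact le_of_sq_le_sq h2 (norm_nonneg _)

/-- both components of `BdAt` in the form `BdC`. -/
theorem bdC_pair {d l : ℕ} {lam : ℂ} {q q1 F F1 G G1 : ℝ → ℂ} {δk δe r c1 eps kap : ℝ}
    (h : BdAt d l lam q q1 F F1 G G1 δk δe r) (hre : 0 ≤ lam.re)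
    (hs : 0 ≤ gL d l / r ^ 2) (hδ : δk ≤ eps * kap)
    (hgap : c1 ^ 2 * kap ^ 2 ≤ |‖lam‖ - gL d l / r ^ 2|) :
    ∃ ku kv eu ev : ℂ,
      BdC 1 c1 eps kap (gL d l / r ^ 2) lam (gf q F r) (gf1 q q1 F F1 r) ku
        (k0 lam (gL d l / r ^ 2)) eu ∧
      BdC (-1) c1 eps kap (gL d l / r ^ 2) lam (gf (fun r => conj (q r)) G r)
        (gf1 (fun r => conj (q r)) (fun r => conj (q1 r)) G G1 r) kv
        (k0s lam (gL d l / r ^ 2)) ev ∧
      ‖eu‖ ^ 2 * gM d q r ≤ δe ∧ ‖ev‖ ^ 2 * gM d q r ≤ δe := by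
  obtain ⟨ku, eu, kv, ev, h1, h2, h3, h4, h5, h6⟩ := h
  refine ⟨ku, kv, eu, ev, ⟨Or.inl rfl, ?_, k0_re_nonneg hre _, ?_, h3.trans hδ, h1⟩,
    ⟨Or.inr rfl, ?_, k0s_re_nonneg hre _, ?_, h4.trans hδ, h2⟩, h5, h6⟩
  · rw [k0_sq]; push_cast; ring
  · refine low_aux (hgap.trans ?_)
    rw [k0_norm_sq]
    have := norm_sub_I_ge lam (gL d l / r ^ 2)
    rwa [abs_of_nonneg hs] at this
  · rw [k0s_sq]; push_cast; ring
  · refine low_aux (hgap.trans ?_)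
    rw [k0s_norm_sq]
    have := norm_add_I_ge lam (gL d l / r ^ 2)
    rwa [abs_of_nonneg hs] at this

/-- **Final form of [S1.bdry]**, uniform in the two radii `ra, rb` in `[r0, r1]` with
`ra + g ≤ rb`: constants depending only on `r0, r1, g, X0, c0`; for every `l, lam`
with `kap` large one of the two radii `b` is good, and at this radius every pair satisfying `BdAt`
satisfies the boundary inequalities `BdOut` for both components; if `Re lam ≤ c0 + 1` one of the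
components is evanescent. -/
theorem bdry_at_unif {r0 r1 g : ℝ} (hr0 : 0 < r0) (hg : 0 < g) (hr1 : 0 < r1) {X0 c0 : ℝ}
    (hX0 : 0 ≤ X0) (hc0 : 0 ≤ c0) :
    ∃ C c c3 K0 : ℝ, 0 < C ∧ 0 < c ∧ 0 < c3 ∧ 1 ≤ K0 ∧
      ∀ (ra rb : ℝ), r0 ≤ ra → ra + g ≤ rb → rb ≤ r1 →
      ∀ (d l : ℕ) (lam : ℂ) (kap : ℝ), 0 ≤ gL d l → kap ^ 2 = 1 + ‖lam‖ + gL d l → K0 ≤ kap →
        0 ≤ lam.re →
        ∃ b, (b = ra ∨ b = rb) ∧
          (lam.re ≤ c0 + 1 → c3 * kap ^ 2 ≤ gL d l / b ^ 2 + lam.im ∨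
            c3 * kap ^ 2 ≤ gL d l / b ^ 2 - lam.im) ∧
          ∀ (q q1 F F1 G G1 : ℝ → ℂ) (δk δe X : ℝ), δk ≤ c * kap → |X| ≤ X0 →
            BdAt d l lam q q1 F F1 G G1 δk δe b →
            BdOut C c c3 kap (gL d l / b ^ 2) δe (gM d q b) X lam 1 (gf q F b)
              (gf1 q q1 F F1 b) ∧
            BdOut C c c3 kap (gL d l / b ^ 2) δe (gM d q b) X lam (-1)
              (gf (fun r => conj (q r)) G b)
              (gf1 (fun r => conj (q r)) (fun r => conj (q1 r)) G G1 b) := by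
  -- the constant of the two radii lemma
  obtain ⟨D0, hD0, hD0e⟩ : ∃ D0 : ℝ, 0 < D0 ∧ D0 = g * r0 / r1 ^ 4 := ⟨_, by positivity, rfl⟩
  obtain ⟨c1, hc1, hc1'⟩ : ∃ c1 : ℝ, 0 < c1 ∧
      c1 ^ 2 * (1 + 2 / D0 * (1 + 1 / r0 ^ 2)) ≤ 1 / 2 := by
    set Y : ℝ := 1 + 2 / D0 * (1 + 1 / r0 ^ 2) with hY
    have hY0 : 0 < Y := by positivity
    refine ⟨Real.sqrt (1 / (2 * Y)), by positivity, ?_⟩
    rw [Real.sq_sqrt (by positivity)]
    apply le_of_eq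
    field_simp
  obtain ⟨C, c, c3, K0, hC, hc, hc3, hK0, hpk⟩ := bdry_package (rb := r1) hr0 hc1 hX0 hc0
  refine ⟨C, c, c3, max K0 2, hC, hc, hc3, le_max_of_le_left hK0, ?_⟩
  intro ra rb hra0 hg' hrb1 d l lam kap hL hkap hK hre
  have hra : 0 < ra := hr0.trans_le hra0
  have hab : ra < rb := by linarith
  have hrb : 0 < rb := hra.trans hab
  have hDlow : D0 ≤ 1 / ra ^ 2 - 1 / rb ^ 2 := by
    have e : 1 / ra ^ 2 - 1 / rb ^ 2 = (rb - ra) * (rb + ra) / (ra ^ 2 * rb ^ 2) := by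
      field_simp
      ring
    rw [e, hD0e]
    apply div_le_div₀
    · apply mul_nonneg <;> linarith
    · apply mul_le_mul <;> linarith
    · positivity
    · have h1 : ra ^ 2 ≤ r1 ^ 2 := pow_le_pow_left₀ hra.le (by linarith) 2
      have h2 : rb ^ 2 ≤ r1 ^ 2 := pow_le_pow_left₀ hrb.le hrb1 2
      calc ra ^ 2 * rb ^ 2 ≤ r1 ^ 2 * r1 ^ 2 := mul_le_mul h1 h2 (by positivity) (by positivity)
        _ = r1 ^ 4 := by ring
  have hc1'' : c1 ^ 2 * (1 + 2 / (1 / ra ^ 2 - 1 / rb ^ 2) * (1 + 1 / ra ^ 2)) ≤ 1 / 2 := by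
    refine le_trans ?_ hc1'
    have h1 : 2 / (1 / ra ^ 2 - 1 / rb ^ 2) ≤ 2 / D0 :=
      div_le_div_of_nonneg_left (by norm_num) hD0 hDlow
    have h2 : 1 / ra ^ 2 ≤ 1 / r0 ^ 2 := by
      apply one_div_le_one_div_of_le (by positivity)
      exact pow_le_pow_left₀ hr0.le hra0 2
    have h3 : 0 < 1 / ra ^ 2 - 1 / rb ^ 2 := hD0.trans_le hDlow
    gcongr
  have hK1 : K0 ≤ kap := (le_max_left _ _).trans hK
  have hK2 : 2 ≤ kap := (le_max_right _ _).trans hK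
  have hk0 : 0 < kap := by linarith
  have hbig : 2 < 1 + ‖lam‖ + gL d l := by rw [← hkap]; nlinarith
  have h2r := two_radii hL (norm_nonneg lam) hra hab hc1'' hbig
  rw [← hkap] at h2r
  obtain ⟨b, hb, hgap⟩ : ∃ b, (b = ra ∨ b = rb) ∧ c1 ^ 2 * kap ^ 2 ≤ |‖lam‖ - gL d l / b ^ 2| := by
    rcases h2r with h | h
    · exact ⟨ra, Or.inl rfl, h⟩
    · exact ⟨rb, Or.inr rfl, h⟩
  have hb1 : r0 ≤ b := by rcases hb with h | h <;> rw [h] <;> linarith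
  have hb2 : b ≤ r1 := by rcases hb with h | h <;> rw [h] <;> linarith
  have hs0 : 0 ≤ gL d l / b ^ 2 := by positivity
  refine ⟨b, hb, ?_, ?_⟩
  · exact (hpk b (gL d l) kap 0 (gL d l / b ^ 2) 0 0 lam hb1 hb2 hL rfl hkap hK1 hc.le
      (by simpa using hX0) le_rfl hre).2
  · intro q q1 F F1 G G1 δk δe X hδ hX hbd
    have hM : 0 ≤ gM d q b := by
      unfold gM
      exact mul_nonneg (normSq_nonneg _) (pow_nonneg (hr0.le.trans hb1) _)
    obtain ⟨ku, kv, eu, ev, hu, hv, heu, hev⟩ := bdC_pair hbd hre hs0 hδ hgap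
    have hpk2 := (hpk b (gL d l) kap c (gL d l / b ^ 2) X (gM d q b) lam hb1 hb2 hL rfl hkap hK1
      le_rfl hX hM hre).1
    have key : ∀ (σ : ℝ) (w w1 k k0 e : ℂ), BdC σ c1 c kap (gL d l / b ^ 2) lam w w1 k k0 e →
        ‖e‖ ^ 2 * gM d q b ≤ δe →
        BdOut C c c3 kap (gL d l / b ^ 2) δe (gM d q b) X lam σ w w1 := by
      intro σ w w1 k k0 e h he
      obtain ⟨p1, p2, p3⟩ := hpk2 σ w w1 k k0 e h
      have he' : C * (gM d q b * ‖e‖ ^ 2) ≤ C * δe := by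
        rw [mul_comm (gM d q b)]
        exact mul_le_mul_of_nonneg_left he hC.le
      have he2 : C * kap * (gM d q b * ‖e‖ ^ 2) ≤ C * kap * δe := by
        rw [mul_comm (gM d q b)]
        exact mul_le_mul_of_nonneg_left he (by positivity)
      simp only [Complex.sq_norm] at p1 p2 p3 he' he2
      refine ⟨by linarith, fun hh => by linarith [p2 hh], fun hh => (p3 hh).1,
        fun hh => by linarith [(p3 hh).2.1], fun hh hr => by linarith [(p3 hh).2.2 hr]⟩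
    exact ⟨key _ _ _ _ _ _ hu heu, key _ _ _ _ _ _ hv hev⟩

/-- the version for two fixed radii. -/
theorem bdry_at {ra rb : ℝ} (hra : 0 < ra) (hab : ra < rb) {X0 c0 : ℝ} (hX0 : 0 ≤ X0)
    (hc0 : 0 ≤ c0) :
    ∃ C c c3 K0 : ℝ, 0 < C ∧ 0 < c ∧ 0 < c3 ∧ 1 ≤ K0 ∧
      ∀ (d l : ℕ) (lam : ℂ) (kap : ℝ), 0 ≤ gL d l → kap ^ 2 = 1 + ‖lam‖ + gL d l → K0 ≤ kap →
        0 ≤ lam.re →
        ∃ b, (b = ra ∨ b = rb) ∧
          (lam.re ≤ c0 + 1 → c3 * kap ^ 2 ≤ gL d l / b ^ 2 + lam.im ∨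
            c3 * kap ^ 2 ≤ gL d l / b ^ 2 - lam.im) ∧
          ∀ (q q1 F F1 G G1 : ℝ → ℂ) (δk δe X : ℝ), δk ≤ c * kap → |X| ≤ X0 →
            BdAt d l lam q q1 F F1 G G1 δk δe b →
            BdOut C c c3 kap (gL d l / b ^ 2) δe (gM d q b) X lam 1 (gf q F b)
              (gf1 q q1 F F1 b) ∧
            BdOut C c c3 kap (gL d l / b ^ 2) δe (gM d q b) X lam (-1)
              (gf (fun r => conj (q r)) G b)
              (gf1 (fun r => conj (q r)) (fun r => conj (q1 r)) G G1 b) := by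
  obtain ⟨C, c, c3, K0, hC, hc, hc3, hK0, h⟩ := bdry_at_unif (r0 := ra) (r1 := rb) (g := rb - ra)
    hra (by linarith) (hra.trans hab) hX0 hc0
  exact ⟨C, c, c3, K0, hC, hc, hc3, hK0, h ra rb le_rfl (by linarith) le_rfl⟩

end Vale.Agent.P139.H399
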