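import Vale.Agent.P139.H399.BdryAt

/-!
# [S1.bdry] uniform version with the order of constants of helper607 (#2203)

`C0` depends only on the window `[r0, r1]` of radii; all other constants may depend on `δ`.
-/

open Complex ComplexConjugate Vale.Agent.P139.H498 Vale.Agent.P139.H607

namespace Vale.Agent.P139.H399

/-- boundary inequalities of one component, with the `δ`-independent constant `C0` in `T_le`
and `nu`. -/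
structure BdOut' (C0 C c c3 kap s D Mb X : ℝ) (lam : ℂ) (σ : ℝ) (w w1 : ℂ) : Prop where
  T_le : Mb * normSq w1 ≤ C0 * kap ^ 2 * (Mb * normSq w) + C * D
  ev : c3 * kap ^ 2 ≤ s + σ * lam.im →
    c * kap * (Mb * normSq w) + Mb * (w1 * conj w).re ≤ C * D
  nu : s + σ * lam.im < c3 * kap ^ 2 → kap ^ 2 ≤ C0 * ‖lam‖
  os : s + σ * lam.im < c3 * kap ^ 2 →
    c * kap * (Mb * normSq w) ≤ Mb * |(w1 * conj w).im| + C * D
  en : s + σ * lam.im < c3 * kap ^ 2 → 0 < lam.re →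
    (X / 4) * (Mb * normSq w1 - s * (Mb * normSq w)) + (1 / 2) * (Mb * (conj lam * w1 * conj w).re)
      ≤ -(c * kap ^ 3 * (Mb * normSq w)) + C * kap * D

theorem BdC.pkg_B1' {σ c1 eps kap s : ℝ} {lam w w1 k k0 e : ℂ}
    (h : BdC σ c1 eps kap s lam w w1 k k0 e) {Cs Mb C0 C : ℝ} (hM : 0 ≤ Mb)
    (hk : 0 ≤ kap) (he : eps ≤ 1) (hs : 0 ≤ s) (hsC : s ≤ Cs * kap ^ 2)
    (hl : ‖lam‖ ≤ kap ^ 2) (hC0 : 4 * Cs + 8 ≤ C0) (hC : 2 ≤ C) :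
    Mb * ‖w1‖ ^ 2 ≤ C0 * kap ^ 2 * (Mb * ‖w‖ ^ 2) + C * (Mb * ‖e‖ ^ 2) := by
  have h1 := h.B1 hM hk he hs hsC hl
  have h2 : (4 * Cs + 8) * kap ^ 2 * (Mb * ‖w‖ ^ 2) ≤ C0 * kap ^ 2 * (Mb * ‖w‖ ^ 2) := by gcongr
  have h3 : 2 * (Mb * ‖e‖ ^ 2) ≤ C * (Mb * ‖e‖ ^ 2) :=
    mul_le_mul_of_nonneg_right hC (by positivity)
  linarith

/-- package with the constant `C0` (depending only on `ra, rb`) fixed first. -/
theorem bdry_package' {ra rb : ℝ} (hra : 0 < ra) :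
    ∃ C0 : ℝ, 1 ≤ C0 ∧ ∀ {c1 X0 c0 : ℝ}, 0 < c1 → 0 ≤ X0 → 0 ≤ c0 →
    ∃ C c c3 K0 : ℝ, 0 < C ∧ 0 < c ∧ 0 < c3 ∧ 1 ≤ K0 ∧
      ∀ (b L kap eps s X Mb : ℝ) (lam : ℂ), ra ≤ b → b ≤ rb → 0 ≤ L → s = L / b ^ 2 →
        kap ^ 2 = 1 + ‖lam‖ + L → K0 ≤ kap → eps ≤ c → |X| ≤ X0 → 0 ≤ Mb → 0 ≤ lam.re →
        (∀ (σ : ℝ) (w w1 k k0 e : ℂ), BdC σ c1 eps kap s lam w w1 k k0 e →
          (Mb * ‖w1‖ ^ 2 ≤ C0 * kap ^ 2 * (Mb * ‖w‖ ^ 2) + C * (Mb * ‖e‖ ^ 2)) ∧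
          (c3 * kap ^ 2 ≤ s + σ * lam.im →
            c * kap * (Mb * ‖w‖ ^ 2) + Mb * (w1 * conj w).re ≤ C * (Mb * ‖e‖ ^ 2)) ∧
          (s + σ * lam.im < c3 * kap ^ 2 →
            kap ^ 2 ≤ C0 * ‖lam‖ ∧
            c * kap * (Mb * ‖w‖ ^ 2) ≤ Mb * |(w1 * conj w).im| + C * (Mb * ‖e‖ ^ 2) ∧
            (0 < lam.re →
              (X / 4) * (Mb * ‖w1‖ ^ 2 - s * (Mb * ‖w‖ ^ 2))
                + (1 / 2) * (Mb * (conj lam * w1 * conj w).re)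
              ≤ -(c * kap ^ 3 * (Mb * ‖w‖ ^ 2)) + C * kap * (Mb * ‖e‖ ^ 2)))) ∧
        (lam.re ≤ c0 + 1 → c3 * kap ^ 2 ≤ s + lam.im ∨ c3 * kap ^ 2 ≤ s - lam.im) := by
  obtain ⟨Cs, hCs⟩ : ∃ Cs : ℝ, Cs = 1 / ra ^ 2 := ⟨_, rfl⟩
  have hCs0 : 0 ≤ Cs := by rw [hCs]; positivity
  obtain ⟨C0, hC00, hC01, hC05⟩ : ∃ C0 : ℝ, 1 ≤ C0 ∧ 4 * Cs + 8 ≤ C0 ∧ 4 * (1 + rb ^ 2) ≤ C0 := by
    have p4 : 0 < 4 * (1 + rb ^ 2) := by positivity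
    refine ⟨4 * Cs + 8 + 4 * (1 + rb ^ 2), ?_, ?_, ?_⟩ <;> linarith
  refine ⟨C0, hC00, ?_⟩
  intro c1 X0 c0 hc1 hX0 hc0
  obtain ⟨c, hc, hcb, hcc1⟩ := pkg_const rb hc1
  obtain ⟨c', hc'0, hc'1, hc'2, hc'3, hc'4⟩ : ∃ c' : ℝ, 0 < c' ∧ c' ≤ c / 4 ∧ c' ≤ c1 / 8 ∧
      c' ≤ 1 ∧ c' ≤ c1 ^ 3 / 16 :=
    ⟨min (min (c / 4) (c1 / 8)) (min 1 (c1 ^ 3 / 16)), by positivity,
      (min_le_left _ _).trans (min_le_left _ _), (min_le_left _ _).trans (min_le_right _ _),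
      (min_le_right _ _).trans (min_le_left _ _), (min_le_right _ _).trans (min_le_right _ _)⟩
  obtain ⟨C, hC0, hC1, hC2, hC3, hC4⟩ : ∃ C : ℝ, 0 < C ∧ 2 ≤ C ∧ 1 / c ≤ C ∧
      2 / c1 ≤ C ∧ X0 / 2 + 1 / c1 ^ 3 ≤ C := by
    have p1 : 0 < 1 / c := by positivity
    have p2 : 0 < 2 / c1 := by positivity
    have p3 : 0 < X0 / 2 + 1 / c1 ^ 3 := by positivity
    refine ⟨2 + 1 / c + 2 / c1 + (X0 / 2 + 1 / c1 ^ 3), ?_, ?_, ?_, ?_, ?_⟩ <;> linarith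
  have hXK : 0 ≤ X0 / 4 * (5 * Cs + 8) / (c1 ^ 3 / 16) := by positivity
  refine ⟨C, c', c ^ 2, 2 + 2 * (c0 + 2) + X0 / 4 * (5 * Cs + 8) / (c1 ^ 3 / 16), hC0, hc'0,
    by positivity, by linarith, ?_⟩
  intro b L kap eps s X Mb lam hb1 hb2 hL hs hkap hK heps hX hM hre0
  have hb : 0 < b := hra.trans_le hb1
  have hk1 : 2 + 2 * (c0 + 2) ≤ kap := by linarith
  have hk1' : 1 ≤ kap := by linarith
  have hk0 : 0 < kap := by linarith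
  have hs0 : 0 ≤ s := by rw [hs]; positivity
  have hlk : ‖lam‖ ≤ kap ^ 2 := by linarith
  have hsC : s ≤ Cs * kap ^ 2 := by
    have h1 : L ≤ kap ^ 2 := by linarith [norm_nonneg lam]
    have h2 : L / b ^ 2 ≤ kap ^ 2 / ra ^ 2 := by gcongr
    rw [hs]
    calc L / b ^ 2 ≤ kap ^ 2 / ra ^ 2 := h2
      _ = _ := by rw [hCs]; ring
  have hbr : b ^ 2 ≤ rb ^ 2 := by gcongr
  have hcb' : c ^ 2 * (1 + b ^ 2) ≤ 1 / 2 := by
    have : c ^ 2 * (1 + b ^ 2) ≤ c ^ 2 * (1 + rb ^ 2) := by gcongr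
    linarith
  have hcb2 : c ^ 2 * b ^ 2 ≤ 1 / 2 := by linarith [sq_nonneg c]
  have hkk : kap ≤ kap ^ 2 := by rw [pow_two]; exact le_mul_of_one_le_right hk0.le hk1'
  have h4k : 4 ≤ kap ^ 2 := by linarith
  have h5k : 2 * (c0 + 2) < kap ^ 2 := by linarith
  refine ⟨fun σ w w1 k k0 e h => ⟨?_, ?_, fun hos => ⟨?_, ?_, fun hre => ?_⟩⟩, fun hre => ?_⟩
  · exact h.pkg_B1' hM hk0.le (heps.trans hc'3) hs0 hsC hlk hC01 hC1
  · exact h.pkg_Ev hM hk1' hc hc'1 heps hC2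
  · exact (h.kap_le_nu hb hs hkap h4k hcb2 hos).trans
      (mul_le_mul_of_nonneg_right (le_trans (by linarith) hC05) (norm_nonneg _))
  · exact h.pkg_Os hM hk1' hc1 hcc1 hc'2 heps hC3 hos
  · exact h.pkg_EnS hM hk1' hc1 hcc1 (heps.trans hc'3) hc'4 heps hs0 hsC hlk hre hX
      (by linarith) hC4 hos
  · exact not_both hb hL hs hkap hcb' hre0 hre h5k

/-- **Final uniform form of [S1.bdry]** (order of constants of helper607). -/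
theorem bdry_unif {r0 r1 X0 c0 : ℝ} (hr0 : 0 < r0) (hX0 : 0 ≤ X0) (hc0 : 0 ≤ c0) :
    ∃ C0 : ℝ, 1 ≤ C0 ∧ ∀ δ : ℝ, 0 < δ → ∃ C c c3 c1 K0 : ℝ,
      0 < C ∧ 0 < c ∧ 0 < c3 ∧ 0 < c1 ∧ 1 ≤ K0 ∧
      ∀ (ra : ℝ), r0 ≤ ra → ra + δ ≤ r1 →
      ∀ (d l : ℕ) (lam : ℂ) (kap : ℝ), 0 ≤ gL d l → kap ^ 2 = 1 + ‖lam‖ + gL d l → K0 ≤ kap →
        0 ≤ lam.re →
        ∃ b, (b = ra ∨ b = ra + δ) ∧
          c1 * kap ^ 2 ≤ ‖((gL d l / b ^ 2 : ℝ) : ℂ) - I * lam‖ ∧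
          c1 * kap ^ 2 ≤ ‖((gL d l / b ^ 2 : ℝ) : ℂ) + I * lam‖ ∧
          (lam.re ≤ c0 + 1 → c3 * kap ^ 2 ≤ gL d l / b ^ 2 + lam.im ∨
            c3 * kap ^ 2 ≤ gL d l / b ^ 2 - lam.im) ∧
          ∀ (q q1 F F1 G G1 : ℝ → ℂ) (δk D X : ℝ), δk ≤ c * kap → |X| ≤ X0 →
            BdAt d l lam q q1 F F1 G G1 δk D b →
            BdOut' C0 C c c3 kap (gL d l / b ^ 2) D (gM d q b) X lam 1 (gf q F b)
              (gf1 q q1 F F1 b) ∧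
            BdOut' C0 C c c3 kap (gL d l / b ^ 2) D (gM d q b) X lam (-1)
              (gf (fun r => conj (q r)) G b)
              (gf1 (fun r => conj (q r)) (fun r => conj (q1 r)) G G1 b) := by
  obtain ⟨C0, hC00, hpk0⟩ := bdry_package' (rb := r1) hr0
  refine ⟨C0, hC00, fun g hg => ?_⟩
  by_cases hr1 : r1 < r0 + g
  · -- no admissible `ra`
    refine ⟨1, 1, 1, 1, 1, one_pos, one_pos, one_pos, one_pos, le_rfl, ?_⟩
    intro ra h1 h2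
    exact absurd (h1.trans (by linarith : ra ≤ r1 - g)) (by linarith)
  have hr1' : 0 < r1 := by linarith
  -- the constant of the two radii lemma
  obtain ⟨D0, hD0, hD0e⟩ : ∃ D0 : ℝ, 0 < D0 ∧ D0 = g * r0 / r1 ^ 4 := ⟨_, by positivity, rfl⟩
  obtain ⟨c1, hc1, hc1'⟩ : ∃ c1 : ℝ, 0 < c1 ∧
      c1 ^ 2 * (1 + 2 / D0 * (1 + 1 / r0 ^ 2)) ≤ 1 / 2 := by
    set Y : ℝ := 1 + 2 / D0 * (1 + 1 / r0 ^ 2) with hY
    have hY0 : 0 < Y := by positivity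
    refine ⟨Real.sqrt (1 / (2 * Y)), by positivity, ?_⟩
    rw [Real.sq_sqrt (by positivity)]
    apply le_of_eq
    field_simp
  obtain ⟨C, c, c3, K0, hC, hc, hc3, hK0, hpk⟩ := hpk0 hc1 hX0 hc0
  refine ⟨C, c, c3, c1 ^ 2, max K0 2, hC, hc, hc3, by positivity, le_max_of_le_left hK0, ?_⟩
  intro ra hra0 hg' d l lam kap hL hkap hK hre
  have hra : 0 < ra := hr0.trans_le hra0
  obtain ⟨rb, hrbe⟩ : ∃ rb, rb = ra + g := ⟨_, rfl⟩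
  rw [← hrbe] at hg' ⊢
  have hab : ra < rb := by linarith
  have hrb : 0 < rb := hra.trans hab
  have hDlow : D0 ≤ 1 / ra ^ 2 - 1 / rb ^ 2 := by
    have e : 1 / ra ^ 2 - 1 / rb ^ 2 = (rb - ra) * (rb + ra) / (ra ^ 2 * rb ^ 2) := by
      field_simp
      ring
    rw [e, hD0e]
    apply div_le_div₀
    · apply mul_nonneg <;> linarith
    · apply mul_le_mul <;> linarith
    · positivity
    · have h1 : ra ^ 2 ≤ r1 ^ 2 := pow_le_pow_left₀ hra.le (by linarith) 2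
      have h2 : rb ^ 2 ≤ r1 ^ 2 := pow_le_pow_left₀ hrb.le hg' 2
      calc ra ^ 2 * rb ^ 2 ≤ r1 ^ 2 * r1 ^ 2 := mul_le_mul h1 h2 (by positivity) (by positivity)
        _ = r1 ^ 4 := by ring
  have hc1'' : c1 ^ 2 * (1 + 2 / (1 / ra ^ 2 - 1 / rb ^ 2) * (1 + 1 / ra ^ 2)) ≤ 1 / 2 := by
    refine le_trans ?_ hc1'
    have h1 : 2 / (1 / ra ^ 2 - 1 / rb ^ 2) ≤ 2 / D0 :=
      div_le_div_of_nonneg_left (by norm_num) hD0 hDlow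
    have h2 : 1 / ra ^ 2 ≤ 1 / r0 ^ 2 := by
      apply one_div_le_one_div_of_le (by positivity)
      exact pow_le_pow_left₀ hr0.le hra0 2
    have h3 : 0 < 1 / ra ^ 2 - 1 / rb ^ 2 := hD0.trans_le hDlow
    gcongr
  have hK1 : K0 ≤ kap := (le_max_left _ _).trans hK
  have hK2 : 2 ≤ kap := (le_max_right _ _).trans hK
  have hk0 : 0 < kap := by linarith
  have hbig : 2 < 1 + ‖lam‖ + gL d l := by rw [← hkap]; nlinarith
  have h2r := two_radii hL (norm_nonneg lam) hra hab hc1'' hbig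
  rw [← hkap] at h2r
  obtain ⟨b, hb, hgap⟩ : ∃ b, (b = ra ∨ b = rb) ∧ c1 ^ 2 * kap ^ 2 ≤ |‖lam‖ - gL d l / b ^ 2| := by
    rcases h2r with h | h
    · exact ⟨ra, Or.inl rfl, h⟩
    · exact ⟨rb, Or.inr rfl, h⟩
  have hb1 : r0 ≤ b := by rcases hb with h | h <;> rw [h] <;> linarith
  have hb2 : b ≤ r1 := by rcases hb with h | h <;> rw [h] <;> linarith
  have hs0 : 0 ≤ gL d l / b ^ 2 := by positivity
  refine ⟨b, hb, ?_, ?_, ?_, ?_⟩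
  · have := norm_sub_I_ge lam (gL d l / b ^ 2)
    rw [abs_of_nonneg hs0] at this
    exact hgap.trans this
  · have := norm_add_I_ge lam (gL d l / b ^ 2)
    rw [abs_of_nonneg hs0] at this
    exact hgap.trans this
  · exact (hpk b (gL d l) kap 0 (gL d l / b ^ 2) 0 0 lam hb1 hb2 hL rfl hkap hK1 hc.le
      (by simpa using hX0) le_rfl hre).2
  · intro q q1 F F1 G G1 δk δe X hδ hX hbd
    have hM : 0 ≤ gM d q b := by
      unfold gM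
      exact mul_nonneg (normSq_nonneg _) (pow_nonneg (hr0.le.trans hb1) _)
    obtain ⟨ku, kv, eu, ev, hu, hv, heu, hev⟩ := bdC_pair hbd hre hs0 hδ hgap
    have hpk2 := (hpk b (gL d l) kap c (gL d l / b ^ 2) X (gM d q b) lam hb1 hb2 hL rfl hkap hK1
      le_rfl hX hM hre).1
    have key : ∀ (σ : ℝ) (w w1 k k0 e : ℂ), BdC σ c1 c kap (gL d l / b ^ 2) lam w w1 k k0 e →
        ‖e‖ ^ 2 * gM d q b ≤ δe →
        BdOut' C0 C c c3 kap (gL d l / b ^ 2) δe (gM d q b) X lam σ w w1 := by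
      intro σ w w1 k k0 e h he
      obtain ⟨p1, p2, p3⟩ := hpk2 σ w w1 k k0 e h
      have he' : C * (gM d q b * ‖e‖ ^ 2) ≤ C * δe := by
        rw [mul_comm (gM d q b)]
        exact mul_le_mul_of_nonneg_left he hC.le
      have he2 : C * kap * (gM d q b * ‖e‖ ^ 2) ≤ C * kap * δe := by
        rw [mul_comm (gM d q b)]
        exact mul_le_mul_of_nonneg_left he (by positivity)
      simp only [Complex.sq_norm] at p1 p2 p3 he' he2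
      refine ⟨by linarith, fun hh => by linarith [p2 hh], fun hh => (p3 hh).1,
        fun hh => by linarith [(p3 hh).2.1], fun hh hr => by linarith [(p3 hh).2.2 hr]⟩
    exact ⟨key _ _ _ _ _ _ hu heu, key _ _ _ _ _ _ hv hev⟩

end Vale.Agent.P139.H399
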